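import Vale.Agent.P277.H619.T3.Fin5
import Vale.Agent.P277.H29.PH.Final
import Vale.Agent.P277.H335.GL
import Vale.Agent.P277.H335.Hyp
import Vale.Agent.P277.H335.Lifts
import Vale.Agent.P277.H762.CL5
import Vale.Agent.P277.H60.Z.Main0
import Vale.Agent.P277.H60.X.StEx

/-!
# P277, T3: finitely many contracted surfaces
-/

noncomputable section

namespace Vale.Agent.P277.T3

/-- (CONTR) -/
theorem stContr : StContr :=
  stContr_of PH.stPH H884.PH.stConst H335.GL.stLift H335.HY.stHyp H762.stCl H60.Z.stEx0 H60.X.stEx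
    H335.LI.stLifts0 H335.LI.stLifts1

end Vale.Agent.P277.T3
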