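import Vale.Agent.P277.Stmts9
import Vale.Agent.P277.H615.Step
import Vale.Agent.P277.H762.L1a
import Vale.Agent.P277.H335.Hyp

/-!
# P277, T3: thin sets in manifolds
-/

open scoped Manifold ContDiff Topology
open Vale.Agent.P272.K Vale.Agent.P285.H281.FD Vale.Agent.P267.H175 Set Metric Filter
open Vale.Agent.P277.PH

noncomputable section

namespace Vale.Agent.P277.T3

variable {n k : ℕ} {M : Type} [TopologicalSpace M] [ChartedSpace (Cm n) M] {S S' : Set M}

theorem thinM_of_family [Nonempty M] {κ : Type*} [Countable κ] (Ω : κ → Set (Cm k))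
    (g : κ → Cm k → M) (h1 : ∀ l, IsOpen (Ω l)) (h2 : ∀ l, ∀ p ∈ Ω l, ContinuousAt (g l) p ∧
      ∀ e : Chart n M, At e (g l p) → AnalyticAt ℂ (fun p => e (g l p)) p)
    (h3 : S ⊆ ⋃ l, g l '' Ω l) : ThinM n k S := by
  rcases isEmpty_or_nonempty κ with hκ | hκ
  · refine ⟨fun _ => ∅, fun _ _ => Classical.arbitrary M, fun _ => isOpen_empty,
      fun _ _ h => h.elim, fun x hx => ?_⟩
    obtain ⟨k, -⟩ := mem_iUnion.1 (h3 hx)
    exact (hκ.false k).elim
  · obtain ⟨e, he⟩ := exists_surjective_nat κ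
    refine ⟨fun n => Ω (e n), fun n => g (e n), fun n => h1 _, fun n => h2 _, fun x hx => ?_⟩
    obtain ⟨k, hk⟩ := mem_iUnion.1 (h3 hx)
    obtain ⟨n, rfl⟩ := he k
    exact mem_iUnion.2 ⟨n, hk⟩

theorem thinM_iUnion [Nonempty M] {κ : Type*} [Countable κ] {T : κ → Set M}
    (h : ∀ i, ThinM n k (T i)) : ThinM n k (⋃ i, T i) := by
  choose Ω g h1 h2 h3 using h
  refine thinM_of_family (κ := κ × ℕ) (fun i => Ω i.1 i.2) (fun i => g i.1 i.2) (fun i => h1 _ _)
    (fun i => h2 _ _) ?_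
  refine iUnion_subset fun i x hx => ?_
  obtain ⟨m, hm⟩ := mem_iUnion.1 (h3 i hx)
  exact mem_iUnion.2 ⟨(i, m), hm⟩

theorem thinM_biUnion [Nonempty M] {κ : Type*} {I : Set κ} (hI : I.Countable) {T : κ → Set M}
    (h : ∀ i ∈ I, ThinM n k (T i)) : ThinM n k (⋃ i ∈ I, T i) := by
  have : Countable I := hI
  rw [biUnion_eq_iUnion]
  exact thinM_iUnion fun i => h i.1 i.2

theorem thinM_empty [Nonempty M] : ThinM n k (∅ : Set M) :=
  ⟨fun _ => ∅, fun _ _ => Classical.arbitrary M, fun _ => isOpen_empty, fun _ _ h => h.elim,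
    empty_subset _⟩

/-- the notion is local -/
theorem thinM_of_local [Nonempty M] [SecondCountableTopology M]
    (h : ∀ x ∈ S, ∃ N ∈ 𝓝 x, ThinM n k (N ∩ S)) : ThinM n k S := by
  choose! N hN hd using h
  obtain ⟨t, htT, htc, ht⟩ := TopologicalSpace.countable_cover_nhdsWithin
    (f := N) (s := S) fun p hp => mem_nhdsWithin_of_mem_nhds (hN p hp)
  refine (thinM_biUnion htc fun p hp => hd p (htT hp)).mono fun x hx => ?_
  obtain ⟨p, hp, hxp⟩ := mem_iUnion₂.1 (ht hx)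
  exact mem_iUnion₂.2 ⟨p, hp, hxp, hx⟩

theorem ThinM.le (h : ThinM n k S) {l : ℕ} (hkl : k ≤ l) : ThinM n l S := by
  obtain ⟨Ω, g, h1, h2, h3⟩ := h
  let π : Cm l →L[ℂ] Cm k := ContinuousLinearMap.pi fun i =>
    ContinuousLinearMap.proj (Fin.castLE hkl i)
  have hπ : Function.Surjective π := fun p => by
    refine ⟨fun i => if h : (i : ℕ) < k then p ⟨i, h⟩ else 0, ?_⟩
    ext i
    simp [π]
  refine ⟨fun m => π ⁻¹' Ω m, fun m p => g m (π p), fun m => (h1 m).preimage π.continuous,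
    fun m p hp => ⟨?_, fun e he => ?_⟩, fun x hx => ?_⟩
  · exact ContinuousAt.comp (f := π) (g := g m) (h2 m _ hp).1 π.continuous.continuousAt
  · exact ((h2 m _ hp).2 e he).comp (f := π) (π.analyticAt p)
  · obtain ⟨m, p, hp, hpx⟩ := mem_iUnion.1 (h3 hx)
    obtain ⟨q, rfl⟩ := hπ p
    exact mem_iUnion.2 ⟨m, q, hp, hpx⟩

omit [ChartedSpace (Cm n) M] in
theorem exists_at [ChartedSpace (Cm n) M] (x : M) : ∃ e : Chart n M, At e x :=
  ⟨chartAt (Cm n) x, chart_mem_atlas (Cm n) x, mem_chart_source (Cm n) x⟩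

/-- composition of a holomorphic map from `ℂ^k` with a holomorphic map to a complex space -/
theorem holAt_comp {X : CSp} {b : M → X.pt} {g : Cm k → M} {p : Cm k} (hg : ContinuousAt g p)
    (hga : ∀ e : Chart n M, At e (g p) → AnalyticAt ℂ (fun p => e (g p)) p)
    (hc : ContinuousAt b (g p))
    (hb : ∀ h : X.pt → ℂ, X.Hol h (b (g p)) → HolF n (fun y => h (b y)) (g p)) :
    HolAt X (fun p => b (g p)) p := by
  refine ⟨ContinuousAt.comp (f := g) (g := b) hc hg, fun h hh => ?_⟩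
  obtain ⟨e, he⟩ := exists_at (n := n) (g p)
  have h1 := (hb h hh e he).comp (f := fun p => e (g p)) (hga e he)
  refine h1.congr ?_
  filter_upwards [hg.eventually_mem (e.open_source.mem_nhds he.2)] with q hq
  simp only [Function.comp_apply]
  rw [e.left_inv hq]

/-- images under holomorphic maps to complex spaces -/
theorem ThinM.dimLe_image (h : ThinM n k S) {X : CSp} {b : M → X.pt} {U : Set M} (hU : IsOpen U)
    (hS : S ⊆ U) (hc : ∀ y ∈ U, ContinuousAt b y)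
    (hb : ∀ y ∈ U, ∀ g : X.pt → ℂ, X.Hol g (b y) → HolF n (fun y => g (b y)) y) :
    DimLe X k (b '' S) := by
  obtain ⟨Ω, g, h1, h2, h3⟩ := h
  refine ⟨fun l => {p | p ∈ Ω l ∧ g l p ∈ U}, fun l p => b (g l p), fun l => ?_, fun l p hp => ?_,
    ?_⟩
  · rw [isOpen_iff_mem_nhds]
    intro p hp
    filter_upwards [(h1 l).mem_nhds hp.1, (h2 l p hp.1).1.eventually (hU.mem_nhds hp.2)]
      with q hq hq' using ⟨hq, hq'⟩
  · exact holAt_comp (h2 l p hp.1).1 (h2 l p hp.1).2 (hc _ hp.2) (hb _ hp.2)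
  · rintro _ ⟨x, hx, rfl⟩
    obtain ⟨l, p, hp, rfl⟩ := mem_iUnion.1 (h3 hx)
    exact mem_iUnion.2 ⟨l, p, ⟨hp, hS hx⟩, rfl⟩

end Vale.Agent.P277.T3
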