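import Vale.Agent.P277.H619.T3.ThinM
import Vale.Agent.P277.H884.Conn

/-!
# P277, T3: complements of thin sets in connected threefolds
-/

open scoped Manifold ContDiff Topology
open Vale.Agent.P272.K Vale.Agent.P285.H281.FD Vale.Agent.P267.H175 Set Metric Filter
open Vale.Agent.P277.PH

noncomputable section

namespace Vale.Agent.P277.T3

variable {H : Type} [TopologicalSpace H] [ChartedSpace (Cm 3) H] {B : Set H}

/-- the complement of a thin set in a small ball is connected and dense -/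
theorem thin_local (hB : ThinM 3 2 B) {y : H} {N : Set H} (hN : N ∈ 𝓝 y) :
    ∃ U ⊆ N, IsOpen U ∧ y ∈ U ∧ IsPreconnected (U \ B) ∧ U ⊆ closure (U \ B) := by
  obtain ⟨Ω, g, hΩ, hg, hcov⟩ := hB
  obtain ⟨e, he⟩ := exists_at (n := 3) y
  have h0 : e.symm ⁻¹' N ∩ e.target ∈ 𝓝 (e y) := by
    refine inter_mem ?_ (e.open_target.mem_nhds (e.map_source he.2))
    refine (e.continuousAt_symm (e.map_source he.2)).preimage_mem_nhds ?_
    rwa [e.left_inv he.2]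
  obtain ⟨r, hr, hball⟩ := Metric.mem_nhds_iff.1 h0
  let W : ℕ → Set (Cm 2) := fun k => {p | p ∈ Ω k ∧ g k p ∈ e.source}
  let g' : ℕ → Cm 2 → Cm 3 := fun k p => e (g k p)
  have hW : ∀ k, IsOpen (W k) := by
    intro k
    rw [isOpen_iff_eventually]
    rintro p ⟨hp1, hp2⟩
    exact ((hΩ k).eventually_mem hp1).and ((hg k p hp1).1.eventually (e.open_source.mem_nhds hp2))
  have hg' : ∀ k, ContDiffOn ℝ 1 (g' k) (W k) := by
    intro k p hp
    have h1 : AnalyticAt ℂ (g' k) p := (hg k p hp.1).2 e ⟨he.1, hp.2⟩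
    exact (h1.restrictScalars (𝕜 := ℝ)).contDiffAt.contDiffWithinAt
  obtain ⟨h1, h2⟩ := H884.b2_three (c := e y) hr hW hg'
  set S : Set (Cm 3) := {z | z ∈ ball (e y) r ∧ e.symm z ∉ B} with hS
  have hsub1 : ball (e y) r \ ⋃ k, g' k '' W k ⊆ S := by
    rintro z ⟨hz1, hz2⟩
    refine ⟨hz1, fun hzB => hz2 ?_⟩
    obtain ⟨k, p, hp, hpz⟩ := mem_iUnion.1 (hcov hzB)
    refine mem_iUnion.2 ⟨k, p, ⟨hp, ?_⟩, ?_⟩
    · rw [hpz]
      exact e.map_target (hball hz1).2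
    · show e (g k p) = z
      rw [hpz, e.right_inv (hball hz1).2]
  have hsub2 : S ⊆ closure (ball (e y) r \ ⋃ k, g' k '' W k) := fun u hu => h2 hu.1
  have hSc : IsPreconnected S := h1.subset_closure hsub1 hsub2
  have hsc : ContinuousOn e.symm (ball (e y) r) :=
    e.continuousOn_symm.mono fun z hz => (hball hz).2
  have hopen : IsOpen (e.symm '' ball (e y) r) :=
    e.symm.isOpen_image_of_subset_source isOpen_ball fun z hz => (hball hz).2
  have himg : e.symm '' ball (e y) r \ B = e.symm '' S := by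
    ext x
    constructor
    · rintro ⟨⟨z, hz, rfl⟩, hx⟩
      exact ⟨z, ⟨hz, hx⟩, rfl⟩
    · rintro ⟨z, ⟨hz, hzB⟩, rfl⟩
      exact ⟨⟨z, hz, rfl⟩, hzB⟩
  refine ⟨e.symm '' ball (e y) r, ?_, hopen, ⟨e y, mem_ball_self hr, e.left_inv he.2⟩, ?_, ?_⟩
  · rintro _ ⟨z, hz, rfl⟩
    exact (hball hz).1
  · rw [himg]
    exact hSc.image _ (hsc.mono fun z hz => hz.1)
  · rintro _ ⟨z, hz, rfl⟩
    rw [himg]
    have h6 : z ∈ closure S := closure_mono hsub1 (h2 hz)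
    exact (hsc.continuousAt (isOpen_ball.mem_nhds hz)).continuousWithinAt.mem_closure_image h6

theorem dense_compl_thin (hB : ThinM 3 2 B) : Dense Bᶜ := by
  intro y
  obtain ⟨U, -, -, hyU, -, hU⟩ := thin_local hB (univ_mem (f := 𝓝 y))
  exact closure_mono (fun x hx => hx.2) (hU hyU)

theorem isPreconnected_compl_thin [PreconnectedSpace H] (hB : ThinM 3 2 B) :
    IsPreconnected Bᶜ := by
  intro u v hu hv huv ⟨a, haB, hau⟩ ⟨b, hbB, hbv⟩
  by_contra hne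
  have hdisj : ∀ x ∉ B, x ∈ u → x ∈ v → False := fun x hx h1 h2 => hne ⟨x, hx, h1, h2⟩
  have hloc : ∀ y : H, (∃ N ∈ 𝓝 y, N \ B ⊆ u) ∨ ∃ N ∈ 𝓝 y, N \ B ⊆ v := by
    intro y
    obtain ⟨U, -, hUo, hyU, hUc, hUd⟩ := thin_local hB (univ_mem (f := 𝓝 y))
    have h1 : U \ B ⊆ u ∪ v := fun x hx => huv hx.2
    rcases (U \ B ∩ u).eq_empty_or_nonempty with h2 | h2
    · right
      refine ⟨U, hUo.mem_nhds hyU, fun x hx => (h1 hx).resolve_left fun h3 => ?_⟩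
      exact (h2 ▸ ⟨hx, h3⟩ : x ∈ (∅ : Set H)).elim
    · left
      refine ⟨U, hUo.mem_nhds hyU, fun x hx => (h1 hx).resolve_right fun h3 => ?_⟩
      obtain ⟨z, hz, hzu, hzv⟩ := hUc u v hu hv h1 h2 ⟨x, hx, h3⟩
      exact hdisj z hz.2 hzu hzv
  set U : Set H := {y | ∃ N ∈ 𝓝 y, N \ B ⊆ u} with hU
  set V : Set H := {y | ∃ N ∈ 𝓝 y, N \ B ⊆ v} with hV
  have hopen : ∀ w : Set H, IsOpen {y : H | ∃ N ∈ 𝓝 y, N \ B ⊆ w} := by
    intro w
    rw [isOpen_iff_mem_nhds]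
    rintro y ⟨N, hN, hNw⟩
    filter_upwards [eventually_mem_nhds_iff.2 hN] with z hz using ⟨N, hz, hNw⟩
  have hd := dense_compl_thin hB
  have hUV : (U ∩ V) = ∅ := by
    rw [eq_empty_iff_forall_notMem]
    rintro y ⟨⟨N, hN, hNu⟩, N', hN', hNv⟩
    obtain ⟨O, hO, hOo, hyO⟩ := mem_nhds_iff.1 (inter_mem hN hN')
    obtain ⟨x, hx1, hx2⟩ := hd.inter_open_nonempty O hOo ⟨y, hyO⟩
    exact hdisj x hx2 (hNu ⟨(hO hx1).1, hx2⟩) (hNv ⟨(hO hx1).2, hx2⟩)
  obtain ⟨x, -, hx⟩ := (isPreconnected_univ (α := H)) U V (hopen u) (hopen v)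
    (fun y _ => hloc y)
    ⟨a, mem_univ _, u, hu.mem_nhds hau, fun x hx => hx.1⟩
    ⟨b, mem_univ _, v, hv.mem_nhds hbv, fun x hx => hx.1⟩
  rw [hUV] at hx
  exact hx

end Vale.Agent.P277.T3
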