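import Vale.Agent.P277.H619.T3.Sub
import Vale.Agent.P277.H29.PH.Final
import Vale.Agent.P277.H619.T3.Conn
import Vale.Agent.P277.H622.B1
import Vale.Agent.P277.H884.PH4b

/-!
# P277, T3: analytic subsets of threefolds
-/

open scoped Manifold ContDiff Topology
open Vale.Agent.P272.K Vale.Agent.P285.H281.FD Vale.Agent.P267.H175 Set Metric Filter
open Vale.Agent.P277.PH

noncomputable section

namespace Vale.Agent.P277.T3

/-- transition maps are analytic -/
theorem trans_an {n : ℕ} {M : Type} [TopologicalSpace M] [ChartedSpace (Cm n) M]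
    [IsManifold 𝓘(ℂ, Cm n) ω M] {y : M} {e e' : Chart n M} (he : At e y) (he' : At e' y) :
    AnalyticAt ℂ (fun z => e' (e.symm z)) (e y) := by
  have h1 := HasGroupoid.compatible (G := contDiffGroupoid ω 𝓘(ℂ, Cm n)) he.1 he'.1
  rw [contDiffGroupoid, mem_groupoid_of_pregroupoid] at h1
  have h2 : ContDiffOn ℂ ω (fun z => e' (e.symm z)) (e.symm.trans e').source := by
    have := h1.1
    simpa [contDiffPregroupoid, Function.comp_def] using this
  have h3 : (e.symm.trans e').source ∈ 𝓝 (e y) := by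
    refine (e.symm.trans e').open_source.mem_nhds ?_
    simp [he.2, he'.2, e.left_inv he.2]
  exact (h2.contDiffAt h3).analyticAt

section
variable {H : Type} [TopologicalSpace H] [ChartedSpace (Cm 3) H] [IsManifold 𝓘(ℂ, Cm 3) ω H]

/-- a nowhere dense analytic subset is thin -/
theorem thinM_of_an [Nonempty H] [SecondCountableTopology H] {U E : Set H}
    (hE : ∀ y ∈ U, IsAnAt 3 E y) (hd : U ⊆ closure Eᶜ) : ThinM 3 2 (U ∩ E) := by
  refine thinM_of_local fun y hy => ?_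
  obtain ⟨k, h, hh, hEe⟩ := hE y hy.1
  have h1 : ∃ i, ¬ ∀ᶠ y' in 𝓝 y, h i y' = 0 := by
    by_contra hcon
    push Not at hcon
    have h2 : ∀ᶠ y' in 𝓝 y, y' ∈ E := by
      filter_upwards [hEe, eventually_all.2 hcon] with y' h3 h4
      exact h3.2 h4
    obtain ⟨z, hz1, hz2⟩ := mem_closure_iff_nhds.1 (hd hy.1) _ h2
    exact hz2 hz1
  obtain ⟨i, hi⟩ := h1
  obtain ⟨e, he⟩ := exists_at (n := 3) y
  set g : Cm 3 → ℂ := fun z => h i (e.symm z) with hg
  have hga : AnalyticAt ℂ g (e y) := hh i e he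
  have hg0 : ¬ g =ᶠ[𝓝 (e y)] 0 := by
    intro h2
    refine hi ?_
    have c1 : ContinuousAt e y := e.continuousAt he.2
    filter_upwards [c1.eventually h2, e.open_source.mem_nhds he.2] with y' h3 h4
    have h5 : h i (e.symm (e y')) = 0 := h3
    rwa [e.left_inv h4] at h5
  have h2 : ∀ᶠ z in 𝓝 (e y), AnalyticAt ℂ g z ∧ z ∈ e.target ∧
      (e.symm z ∈ E ↔ ∀ i, h i (e.symm z) = 0) :=
    hga.eventually_analyticAt.and ((e.open_target.eventually_mem (e.map_source he.2)).and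
      (ev_symm he.2 hEe))
  obtain ⟨r, hr, hball⟩ := Metric.eventually_nhds_iff_ball.1 h2
  have hgz : ∀ z ∈ ball (e y) r, ¬ g =ᶠ[𝓝 z] 0 := by
    intro z hz h3
    refine hg0 ?_
    have h4 : AnalyticOnNhd ℂ g (ball (e y) r) := fun w hw => (hball w hw).1
    have h5 := h4.eqOn_zero_of_preconnected_of_eventuallyEq_zero
      (convex_ball (e y) r).isPreconnected hz h3
    filter_upwards [isOpen_ball.mem_nhds (mem_ball_self hr)] with w hw using h5 hw
  obtain ⟨W, γ, hW, hγ, hcov⟩ := H622.stB1 2 (ball (e y) r) g isOpen_ball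
    (fun z hz => (hball z hz).1) hgz
  refine ⟨e.symm '' ball (e y) r, ?_, W, fun k p => e.symm (γ k p), hW, fun k p hp => ?_, ?_⟩
  · exact (e.symm.isOpen_image_of_subset_source isOpen_ball fun z hz => (hball z hz).2.1).mem_nhds
      ⟨e y, mem_ball_self hr, e.left_inv he.2⟩
  · obtain ⟨h3, h4⟩ := hγ k p hp
    have h5 := (hball _ h4).2.1
    refine ⟨ContinuousAt.comp (f := γ k) (g := e.symm) (e.continuousAt_symm h5) h3.continuousAt,
      fun e' he' => ?_⟩
    have h6 : AnalyticAt ℂ (fun z => e' (e.symm z)) (e (e.symm (γ k p))) :=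
      trans_an ⟨he.1, e.map_target h5⟩ he'
    rw [e.right_inv h5] at h6
    exact AnalyticAt.comp (f := γ k) (g := fun z => e' (e.symm z)) h6 h3
  · rintro _ ⟨⟨z, hz, rfl⟩, -, hzE⟩
    have h3 : g z = 0 := ((hball z hz).2.2.1 hzE) i
    obtain ⟨k, p, hp, hpz⟩ := mem_iUnion.1 (hcov ⟨hz, h3⟩)
    exact mem_iUnion.2 ⟨k, p, hp, by simp only [hpz]⟩

end

section
variable {H Y : Type} [TopologicalSpace H] [TopologicalSpace Y] [ChartedSpace (Cm 3) H]
  [ChartedSpace (Cm 4) Y] [IsManifold 𝓘(ℂ, Cm 4) ω Y] [CompactSpace H] [T2Space Y] {ι : H → Y}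
  {X : CSp} {O : Set Y} {v : Y → X.pt}

/-- open subsets of `H` have dimension three -/
theorem IsSub.not_dimLe (hι : IsSub ι) (hv : IsOpenEmb X O v) {h₀ : H} (hO : ι h₀ ∈ O)
    {N : Set H} (hN : N ∈ 𝓝 h₀) (hNO : ∀ h ∈ N, ι h ∈ O) :
    ¬ DimLe X 2 ((fun h => v (ι h)) '' N) := by
  intro hd
  obtain ⟨e, he⟩ := exists_at (n := 3) h₀
  obtain ⟨u, hu1, hu2, hu3⟩ := hι.exists_retrX hv hO he
  have c1 : ContinuousAt (fun h => v (ι h)) h₀ :=
    ContinuousAt.comp (f := ι) (g := v) (hv.continuousAt hO) hι.cont.continuousAt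
  have h1 : ∀ᶠ h in 𝓝 h₀, h ∈ N ∧ h ∈ e.source ∧ (∀ i, X.Hol (fun x => u x i) (v (ι h))) ∧
      u (v (ι h)) = e h := by
    filter_upwards [hN, e.open_source.mem_nhds he.2, c1.eventually hu1, c1.eventually hu2]
      with h g1 g2 g3 g4
    exact ⟨g1, g2, g3, (g4 h (hNO h g1) rfl).2⟩
  set N' : Set H := {h | h ∈ N ∧ h ∈ e.source ∧ (∀ i, X.Hol (fun x => u x i) (v (ι h))) ∧
      u (v (ι h)) = e h} with hN'
  have h2 : H762.Cv 2 (u '' ((fun h => v (ι h)) '' N')) := by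
    refine H884.PH.cv_image (X := X) (V := {x | ∀ i, X.Hol (fun x => u x i) x}) (F := u)
      (fun i y hy => hy i) ?_ ?_
    · rintro _ ⟨h, hh, rfl⟩
      exact hh.2.2.1
    · exact hd.mono (image_mono fun h hh => hh.1)
  have h3 : u '' ((fun h => v (ι h)) '' N') ∈ 𝓝 (e h₀) := by
    have h4 : e '' (N' ∩ e.source) ∈ 𝓝 (e h₀) :=
      e.image_mem_nhds he.2 (inter_mem h1 (e.open_source.mem_nhds he.2))
    refine mem_of_superset h4 ?_
    rintro _ ⟨h, ⟨hh, -⟩, rfl⟩
    exact ⟨_, ⟨h, hh, rfl⟩, hh.2.2.2⟩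
  refine H762.not_cv_nhds ?_ h3 h2
  simp

end

end Vale.Agent.P277.T3
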