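import Vale.Agent.P277.H619.T3.Contr

/-!
# P277, T3: local boundedness along a sequence of flips
-/

open scoped Manifold ContDiff Topology
open Vale.Agent.P272.K Vale.Agent.P285.H281.FD Vale.Agent.P267.H175 Set Metric Filter
open Vale.Agent.P277.PH

noncomputable section

namespace Vale.Agent.P277.T3

variable {Y : Type} [TopologicalSpace Y] [T2Space Y] [CompactSpace Y] [ChartedSpace (Cm 4) Y]
  [IsManifold 𝓘(ℂ, Cm 4) ω Y] {W : CSp} {X Z : ℕ → CSp} {v₀ : Y → W.pt} {p : W.pt → (X 0).pt}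
  {P : Bd W.pt} {r : ℕ} {G : Fin r → Set Y}
  {f : ∀ j, (X j).pt → (Z j).pt}
  {f' : ∀ j, (X (j + 1)).pt → (Z j).pt} {A : ∀ j, Set (Z j).pt} {L : ∀ j, Bd (X j).pt}
  {L' : ∀ j, Bd (X (j + 1)).pt} {O : ℕ → Set Y} {v : ∀ j, Y → (X j).pt}
  {H : Type} [TopologicalSpace H] [T2Space H] [CompactSpace H] [ConnectedSpace H]
  [ChartedSpace (Cm 3) H] [IsManifold 𝓘(ℂ, Cm 3) ω H] {ι : H → Y} {B : ∀ j, Set (X j).pt}
  {D : Set H} {u : H → ℝ}

omit [T2Space Y] [CompactSpace Y] [ChartedSpace (Cm 4) Y] [IsManifold 𝓘(ℂ, Cm 4) ω Y] [T2Space H]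
  [CompactSpace H] [ConnectedSpace H] [ChartedSpace (Cm 3) H] [IsManifold 𝓘(ℂ, Cm 3) ω H] in
/-- off `B` there is nothing to show -/
theorem bdAt_of_notMem (hB : IsStr X O v ι B) {j : ℕ} {x : (X j).pt} (hx : x ∉ B j) :
    BdAt (ι ⁻¹' O j) D (fun h => v j (ι h)) u x := by
  refine ⟨0, ?_⟩
  filter_upwards [(hB.closed j).isOpen_compl.mem_nhds hx] with x' hx' h hh _ hhx
  exact (hx' (hhx ▸ (hB.mem j _ hh).2 ⟨h, rfl⟩)).elim

omit [T2Space Y] [CompactSpace Y] [IsManifold 𝓘(ℂ, Cm 4) ω Y] [T2Space H]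
  [CompactSpace H] [ConnectedSpace H] [ChartedSpace (Cm 3) H] [IsManifold 𝓘(ℂ, Cm 3) ω H] in
theorem bd_step (hfl : ∀ j, IsFlip (X j) (Z j) (X (j + 1)) (f j) (f' j) (A j) (L j) (L' j))
    (hS : IsSeq X Z f f' A O v) (hB : IsStr X O v ι B) {j : ℕ}
    (h1 : DimLe (X j) 1 {x | x ∉ v j '' O j ∧
      ¬ BdAt (ι ⁻¹' O j) D (fun h => v j (ι h)) u x})
    (h2 : DimLe (X (j + 1)) 1 {x | (f' j x ∈ A j ∧ x ∈ B (j + 1)) ∧
      ¬ BdAt (ι ⁻¹' O (j + 1)) D (fun h => v (j + 1) (ι h)) u x}) :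
    DimLe (X (j + 1)) 1 {x | x ∉ v (j + 1) '' O (j + 1) ∧
      ¬ BdAt (ι ⁻¹' O (j + 1)) D (fun h => v (j + 1) (ι h)) u x} := by
  have sm := (hfl j).small
  have sm' := (hfl j).small'
  refine (h2.union (H615.dimLe_tr sm sm' h1)).mono ?_
  rintro x ⟨hx, hbd⟩
  by_cases hA : f' j x ∈ A j
  · refine Or.inl ⟨⟨hA, ?_⟩, hbd⟩
    by_contra hxB
    exact hbd (bdAt_of_notMem hB hxB)
  · right
    have hfx : f j (H615.tr (f' j) sm x) = f' j x := H615.f'_tr sm x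
    refine ⟨H615.tr (f' j) sm x, ⟨⟨?_, ?_⟩, ?_⟩, H615.tr_tr sm' sm hA⟩
    · rintro ⟨y, hy, hyx⟩
      rw [← hyx] at hfx
      have hy' : y ∈ O (j + 1) := hS.mem_succ.2 ⟨hy, by rw [hfx]; exact hA⟩
      refine hx ⟨y, hy', ?_⟩
      refine sm'.inj x (v (j + 1) y) hA ?_
      rw [hS.comp j y hy', hfx]
    · rintro ⟨C, hC⟩
      refine hbd ⟨C, ?_⟩
      filter_upwards [(H615.tr_continuousAt sm' sm hA).eventually hC] with z hz h hh hhD hhz
      obtain ⟨g1, g2⟩ := hS.mem_succ.1 (show ι h ∈ O (j + 1) from hh)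
      refine hz h g1 hhD ?_
      show v j (ι h) = H615.pre sm (f' j z)
      rw [← hhz]
      show v j (ι h) = H615.pre sm (f' j (v (j + 1) (ι h)))
      rw [hS.comp j _ hh, H615.pre_f sm g2]
    · show f j _ ∉ A j
      rw [hfx]
      exact hA

omit [T2Space Y] [CompactSpace Y] [IsManifold 𝓘(ℂ, Cm 4) ω Y] [T2Space H]
  [ConnectedSpace H] [IsManifold 𝓘(ℂ, Cm 3) ω H] in
theorem bd_zero (hR : T2.IsRes v₀ p P G) (hO0 : O 0 = (⋃ l, G l)ᶜ)
    (hv0 : v 0 = fun y => p (v₀ y)) (hι : IsSub ι)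
    (h1 : ThinM 3 1 {y | y ∈ ι ⁻¹' (⋃ l, G l) ∧ ¬ BdAt univ D id u y}) :
    DimLe (X 0) 1 {x | x ∉ v 0 '' O 0 ∧ ¬ BdAt (ι ⁻¹' O 0) D (fun h => v 0 (ι h)) u x} := by
  have hbc : Continuous fun h => v 0 (ι h) := by
    rw [hv0]
    exact continuous_iff_continuousAt.2 fun h => ContinuousAt.comp (f := ι)
      (g := fun y => p (v₀ y)) (res_hol hR (ι h)).1 hι.cont.continuousAt
  have h2 := h1.dimLe_image (X := X 0) (b := fun h => v 0 (ι h)) isOpen_univ (subset_univ _)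
    (fun y _ => hbc.continuousAt) (fun y _ g hg => by
      rw [hv0] at hg ⊢
      exact hι.holF (ζ := fun y => g (p (v₀ y))) ((res_hol hR (ι y)).2 g hg))
  refine h2.mono ?_
  rintro x ⟨hx, hbd⟩
  by_contra hcon
  refine hbd ?_
  -- bounded near the fibre
  have key : ∀ y : H, v 0 (ι y) = x → BdAt univ D id u y := by
    intro y hy
    by_contra h3
    refine hcon ⟨y, ⟨?_, h3⟩, hy⟩
    by_contra h4
    refine hx ⟨ι y, ?_, hy⟩
    rw [hO0]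
    exact h4
  have hK : IsCompact {y : H | v 0 (ι y) = x} := (isClosed_singleton.preimage hbc).isCompact
  have h3 : ∃ C, ∀ y ∈ {y : H | v 0 (ι y) = x}, ∀ᶠ h in 𝓝 y, h ∉ D → |u h| ≤ C := by
    refine hK.induction_on (p := fun s => ∃ C, ∀ y ∈ s, ∀ᶠ h in 𝓝 y, h ∉ D → |u h| ≤ C)
      ⟨0, by simp⟩ (fun s t hst ⟨C, hC⟩ => ⟨C, fun y hy => hC y (hst hy)⟩) ?_ ?_
    · rintro s t ⟨C, hC⟩ ⟨C', hC'⟩
      refine ⟨max C C', fun y hy => ?_⟩
      rcases hy with hy | hy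
      · filter_upwards [hC y hy] with h hh hD using (hh hD).trans (le_max_left _ _)
      · filter_upwards [hC' y hy] with h hh hD using (hh hD).trans (le_max_right _ _)
    · intro y hy
      obtain ⟨C, hC⟩ := key y hy
      have h4 : ∀ᶠ h in 𝓝 y, h ∉ D → |u h| ≤ C := by
        filter_upwards [hC] with h hh hD using hh h (mem_univ _) hD rfl
      exact ⟨{y | ∀ᶠ h in 𝓝 y, h ∉ D → |u h| ≤ C},
        mem_nhdsWithin_of_mem_nhds (eventually_eventually_nhds.2 h4), C, fun z hz => hz⟩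
  obtain ⟨C, hC⟩ := h3
  refine ⟨C, ?_⟩
  have hcl : IsClosedMap fun h => v 0 (ι h) := hbc.isClosedMap
  filter_upwards [hcl.eventually_nhds_fiber (p := fun h => h ∉ D → |u h| ≤ C) x
    (fun y hy => hC y hy)] with x' hx' h _ hD hh
  exact hx' h hh hD

end Vale.Agent.P277.T3
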