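import Vale.Agent.P277.H619.T3.An

/-!
# P277, T3: the thin complements in a sequence of flips
-/

open scoped Manifold ContDiff Topology
open Vale.Agent.P272.K Vale.Agent.P285.H281.FD Vale.Agent.P267.H175 Set Metric Filter
open Vale.Agent.P277.PH

noncomputable section

namespace Vale.Agent.P277.T3

/-! ### analytic sets -/

section
variable {H : Type} [TopologicalSpace H] [ChartedSpace (Cm 3) H]

/-- preimages of analytic sets are analytic -/
theorem isAnAt_preimage {X : CSp} {q : H → X.pt} {A : Set X.pt} {y : H} (hA : IsAn X univ A)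
    (hc : ContinuousAt q y) (hq : ∀ g : X.pt → ℂ, X.Hol g (q y) → HolF 3 (fun y => g (q y)) y) :
    IsAnAt 3 (q ⁻¹' A) y := by
  obtain ⟨k, h, hh, he⟩ := hA (q y) (mem_univ _)
  exact ⟨k, fun i y => h i (q y), fun i => hq _ (hh i), hc.eventually he⟩

/-- identity theorem for analytic subsets of connected manifolds -/
theorem dense_compl_an [PreconnectedSpace H] {E : Set H} (hE : ∀ y, IsAnAt 3 E y)
    (hne : Eᶜ.Nonempty) : Dense Eᶜ := by
  have hcl : IsClosed (interior E) := by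
    rw [← closure_subset_iff_isClosed]
    intro y hy
    obtain ⟨k, h, hh, hEe⟩ := hE y
    obtain ⟨e, he⟩ := exists_at (n := 3) y
    have h1 : ∀ᶠ z in 𝓝 (e y), (∀ i, AnalyticAt ℂ (fun z => h i (e.symm z)) z) ∧ z ∈ e.target ∧
        (e.symm z ∈ E ↔ ∀ i, h i (e.symm z) = 0) :=
      (eventually_all.2 fun i => (hh i e he).eventually_analyticAt).and
        ((e.open_target.eventually_mem (e.map_source he.2)).and (ev_symm he.2 hEe))
    obtain ⟨r, hr, hball⟩ := Metric.eventually_nhds_iff_ball.1 h1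
    have hN : IsOpen (e.symm '' ball (e y) r) :=
      e.symm.isOpen_image_of_subset_source isOpen_ball fun z hz => (hball z hz).2.1
    have hyN : y ∈ e.symm '' ball (e y) r := ⟨e y, mem_ball_self hr, e.left_inv he.2⟩
    obtain ⟨x, ⟨z, hz, rfl⟩, hxE⟩ := mem_closure_iff.1 hy _ hN hyN
    have hzero : ∀ i, EqOn (fun z => h i (e.symm z)) 0 (ball (e y) r) := by
      intro i
      have h2 : AnalyticOnNhd ℂ (fun z => h i (e.symm z)) (ball (e y) r) :=
        fun w hw => (hball w hw).1 i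
      refine h2.eqOn_zero_of_preconnected_of_eventuallyEq_zero
        (convex_ball (e y) r).isPreconnected hz ?_
      have c1 : ContinuousAt e.symm z := e.continuousAt_symm (hball z hz).2.1
      filter_upwards [c1.eventually_mem (isOpen_interior.mem_nhds hxE),
        isOpen_ball.mem_nhds hz] with w hw1 hw2
      exact (hball w hw2).2.2.1 (interior_subset hw1) i
    rw [mem_interior_iff_mem_nhds]
    filter_upwards [hN.mem_nhds hyN] with x hx
    obtain ⟨w, hw, rfl⟩ := hx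
    exact (hball w hw).2.2.2 fun i => hzero i hw
  have h3 : interior E = ∅ ∨ interior E = univ :=
    isClopen_iff.1 ⟨hcl, isOpen_interior⟩
  rcases h3 with h3 | h3
  · rw [interior_eq_empty_iff_dense_compl] at h3
    exact h3
  · obtain ⟨x, hx⟩ := hne
    exact (hx (interior_subset (h3 ▸ mem_univ x))).elim

end

/-! ### the exceptional divisors -/

section
variable {H Y : Type} [TopologicalSpace H] [TopologicalSpace Y] [ChartedSpace (Cm 3) H]
  [ChartedSpace (Cm 4) Y] {ι : H → Y}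

theorem IsSub.holF (hι : IsSub ι) {ζ : Y → ℂ} {h : H}
    (hζ : ∀ e : Chart 4 Y, At e (ι h) → AnalyticAt ℂ (fun z => ζ (e.symm z)) (e (ι h))) :
    HolF 3 (fun h => ζ (ι h)) h := by
  intro e he
  set e' : Chart 4 Y := chartAt (Cm 4) (ι h) with he'
  have hA : At e' (ι h) := ⟨chart_mem_atlas _ _, mem_chart_source _ _⟩
  obtain ⟨h1, -⟩ := hι.holo h e e' he hA
  have h2 : e' (ι (e.symm (e h))) = e' (ι h) := by rw [e.left_inv he.2]
  have h3 : AnalyticAt ℂ (fun z => ζ (e'.symm z)) (e' (ι (e.symm (e h)))) := by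
    rw [h2]; exact hζ e' hA
  have h4 := AnalyticAt.comp (f := fun z => e' (ι (e.symm z))) (g := fun z => ζ (e'.symm z)) h3 h1
  refine h4.congr ?_
  have c1 : ContinuousAt (fun z => ι (e.symm z)) (e h) := by
    refine ContinuousAt.comp (f := e.symm) (g := ι) hι.cont.continuousAt
      (e.continuousAt_symm (e.map_source he.2))
  have h5 : e'.source ∈ 𝓝 (ι (e.symm (e h))) := by
    rw [e.left_inv he.2]; exact e'.open_source.mem_nhds hA.2
  filter_upwards [c1.eventually_mem h5] with w hw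
  simp only [Function.comp_apply]
  rw [e'.left_inv hw]

/-- local equations of smooth hypersurfaces -/
theorem exists_leq [IsManifold 𝓘(ℂ, Cm 4) ω Y] {G : Set Y} (hG : T2.IsHyp G) (hc : IsClosed G)
    (y : Y) :
    ∃ ζ : Y → ℂ, (∀ᶠ y' in 𝓝 y, y' ∈ G ↔ ζ y' = 0) ∧
      ∀ e : Chart 4 Y, At e y → AnalyticAt ℂ (fun z => ζ (e.symm z)) (e y) := by
  by_cases hy : y ∈ G
  · obtain ⟨ξ, w₀, r, h, rfl⟩ := hG y hy
    have hw₀ := mem_ball_self (x := w₀) h.pos
    set e : Chart 4 Y := chartAt (Cm 4) (ξ w₀) with he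
    have hA : At e (ξ w₀) := ⟨chart_mem_atlas _ _, mem_chart_source _ _⟩
    obtain ⟨h1, h2⟩ := h.an w₀ hw₀ e hA
    have h3 : Function.Injective (fderiv ℂ (fun w => e (ξ w)) w₀) := by
      have h4 := LinearMap.isUnit_iff_isUnit_det
        (fderiv ℂ (fun w => e (ξ w)) w₀ : Cm 4 →ₗ[ℂ] Cm 4)
      have h5 : IsUnit (fderiv ℂ (fun w => e (ξ w)) w₀ : Cm 4 →ₗ[ℂ] Cm 4) :=
        h4.2 (isUnit_iff_ne_zero.2 h2)
      exact ((Module.End.isUnit_iff _).1 h5).injective
    obtain ⟨E, hE, hmem, -, hEs⟩ := H73.exists_localInv h1 h3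
    have hEt : e (ξ w₀) ∈ E.target := by
      have h4 := E.map_source hmem
      rwa [hE] at h4
    have hinv : E.symm (e (ξ w₀)) = w₀ := by
      have h4 := E.left_inv hmem
      rwa [hE] at h4
    refine ⟨fun y => E.symm (e y) 0, ?_, fun e' he' => ?_⟩
    · -- near `ξ w₀`, `y = ξ (E.symm (e y))`
      have c1 : ContinuousAt (fun y => E.symm (e y)) (ξ w₀) := by
        refine ContinuousAt.comp (f := e) (g := E.symm) ?_ (e.continuousAt hA.2)
        exact E.continuousAt_symm hEt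
      have h4 : ∀ᶠ y in 𝓝 (ξ w₀), E.symm (e y) ∈ ball w₀ r ∧ ξ (E.symm (e y)) = y := by
        have c2 : ContinuousAt (fun y => ξ (E.symm (e y))) (ξ w₀) := by
          refine ContinuousAt.comp (f := fun y => E.symm (e y)) (g := ξ) ?_ c1
          rw [hinv]
          exact h.cont w₀ hw₀
        have h5 : e.source ∈ 𝓝 (ξ (E.symm (e (ξ w₀)))) := by
          rw [hinv]; exact e.open_source.mem_nhds hA.2
        have h6 : ball w₀ r ∈ 𝓝 (E.symm (e (ξ w₀))) := by
          rw [hinv]; exact isOpen_ball.mem_nhds hw₀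
        filter_upwards [c1.eventually_mem h6, c2.eventually_mem h5, e.open_source.mem_nhds hA.2,
          (e.continuousAt hA.2).eventually_mem (E.open_target.mem_nhds hEt)] with y g1 g2 g3 g4
        refine ⟨g1, e.injOn g2 g3 ?_⟩
        have g5 := E.right_inv g4
        rwa [hE] at g5
      filter_upwards [h4] with y hy'
      constructor
      · intro hyG
        rw [← hy'.2] at hyG
        exact (h.mem _ hy'.1).1 hyG
      · intro h0
        rw [← hy'.2]
        exact (h.mem _ hy'.1).2 h0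
    · have h4 : AnalyticAt ℂ (fun z => e (e'.symm z)) (e' (ξ w₀)) := trans_analyticAt he' hA
      have h5 : AnalyticAt ℂ (fun z => E.symm (e (e'.symm z))) (e' (ξ w₀)) := by
        refine AnalyticAt.fun_comp (g := E.symm) (hEs _ ?_) h4
        rw [e'.left_inv he'.2]
        exact hEt
      exact ((ContinuousLinearMap.proj (R := ℂ) (φ := fun _ : Fin 4 => ℂ) 0).analyticAt _).comp h5
  · refine ⟨fun _ => 1, ?_, fun _ _ => analyticAt_const⟩
    filter_upwards [hc.isOpen_compl.mem_nhds hy] with y' hy'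
    exact ⟨fun h => (hy' h).elim, fun h => (one_ne_zero h).elim⟩

/-- the union of the exceptional divisors is analytic in `H` -/
theorem isAnAt_union [IsManifold 𝓘(ℂ, Cm 4) ω Y] (hι : IsSub ι) {r : ℕ} {G : Fin r → Set Y}
    (hG : ∀ l, T2.IsHyp (G l)) (hc : ∀ l, IsClosed (G l)) (h : H) :
    IsAnAt 3 (ι ⁻¹' ⋃ l, G l) h := by
  choose ζ hζ1 hζ2 using fun l => exists_leq (hG l) (hc l) (ι h)
  refine ⟨1, fun _ h => ∏ l, ζ l (ι h), fun _ => ?_, ?_⟩
  · intro e he
    have h1 : AnalyticAt ℂ (fun z => ∏ l, ζ l (ι (e.symm z))) (e h) :=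
      Finset.analyticAt_fun_prod Finset.univ fun l _ => hι.holF (hζ2 l) e he
    exact h1
  · have h2 : ∀ᶠ h' in 𝓝 h, ∀ l, ι h' ∈ G l ↔ ζ l (ι h') = 0 :=
      eventually_all.2 fun l => hι.cont.continuousAt.eventually (hζ1 l)
    filter_upwards [h2] with h' h3
    simp only [mem_preimage, mem_iUnion, forall_const, Finset.prod_eq_zero_iff, Finset.mem_univ,
      true_and]
    exact exists_congr fun l => h3 l

end

/-! ### the sequence -/

section
variable {Y : Type} [TopologicalSpace Y] [T2Space Y] [CompactSpace Y] [ChartedSpace (Cm 4) Y]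
  [IsManifold 𝓘(ℂ, Cm 4) ω Y] {X Z : ℕ → CSp} {f : ∀ j, (X j).pt → (Z j).pt}
  {f' : ∀ j, (X (j + 1)).pt → (Z j).pt} {A : ∀ j, Set (Z j).pt} {L : ∀ j, Bd (X j).pt}
  {L' : ∀ j, Bd (X (j + 1)).pt} {O : ℕ → Set Y} {v : ∀ j, Y → (X j).pt}

omit [T2Space Y] [CompactSpace Y] [IsManifold 𝓘(ℂ, Cm 4) ω Y] in
theorem IsSeq.mem_succ (hS : IsSeq X Z f f' A O v) {j : ℕ} {y : Y} :
    y ∈ O (j + 1) ↔ y ∈ O j ∧ f j (v j y) ∉ A j := by
  rw [hS.step]
  exact Iff.rfl

omit [T2Space Y] [CompactSpace Y] [IsManifold 𝓘(ℂ, Cm 4) ω Y] in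
theorem IsSeq.anti (hS : IsSeq X Z f f' A O v) {i j : ℕ} (hij : i ≤ j) : O j ⊆ O i := by
  induction hij with
  | refl => exact Subset.rfl
  | step _ ih => exact fun y hy => ih (hS.mem_succ.1 hy).1

variable {H : Type} [TopologicalSpace H] [T2Space H] [CompactSpace H] [ConnectedSpace H]
  [ChartedSpace (Cm 3) H] [IsManifold 𝓘(ℂ, Cm 3) ω H] {ι : H → Y}

omit [T2Space Y] [CompactSpace Y] [IsManifold 𝓘(ℂ, Cm 4) ω Y] [T2Space H] [CompactSpace H]
  [ConnectedSpace H] [IsManifold 𝓘(ℂ, Cm 3) ω H] in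
/-- the map `v j ∘ ι` is holomorphic -/
theorem IsSeq.holF (hS : IsSeq X Z f f' A O v) (hι : IsSub ι) {j : ℕ} {h : H} (hh : ι h ∈ O j) :
    ContinuousAt (fun h => v j (ι h)) h ∧
      ∀ g : (X j).pt → ℂ, (X j).Hol g (v j (ι h)) → HolF 3 (fun h => g (v j (ι h))) h := by
  refine ⟨ContinuousAt.comp (f := ι) (g := v j) ((hS.emb j).continuousAt hh)
    hι.cont.continuousAt, fun g hg => ?_⟩
  exact hι.holF (ζ := fun y => g (v j y)) fun e he => ((hS.emb j).hol_iff hh he).1 hg

/-- the complement of `O j` in `H` is thin -/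
theorem IsSeq.thin (hS : IsSeq X Z f f' A O v)
    (hfl : ∀ j, IsFlip (X j) (Z j) (X (j + 1)) (f j) (f' j) (A j) (L j) (L' j)) {r : ℕ}
    {G : Fin r → Set Y} (hG : ∀ l, T2.IsHyp (G l)) (hc : ∀ l, IsClosed (G l))
    (hO0 : O 0 = (⋃ l, G l)ᶜ) (hι : IsSub ι) (hne : (ι ⁻¹' O 0).Nonempty) (j : ℕ) :
    ThinM 3 2 (ι ⁻¹' O j)ᶜ := by
  have : Nonempty H := inferInstance
  have : SecondCountableTopology H := ChartedSpace.secondCountable_of_sigmaCompact (Cm 3) H
  induction j with
  | zero =>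
    have h1 : (ι ⁻¹' O 0)ᶜ = ι ⁻¹' ⋃ l, G l := by
      rw [hO0]; ext; simp
    have h2 := thinM_of_an (U := univ) (E := ι ⁻¹' ⋃ l, G l)
      (fun y _ => isAnAt_union hι hG hc y) (by
        rw [(dense_compl_an (fun y => isAnAt_union hι hG hc y) ?_).closure_eq]
        rw [← h1, compl_compl]
        exact hne)
    rw [h1]
    simpa using h2
  | succ j ih =>
    have h1 : (ι ⁻¹' O (j + 1))ᶜ ⊆
        (ι ⁻¹' O j)ᶜ ∪ (ι ⁻¹' O j ∩ (fun h => v j (ι h)) ⁻¹' (f j ⁻¹' A j)) := by
      intro h hh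
      by_cases h2 : ι h ∈ O j
      · refine Or.inr ⟨h2, ?_⟩
        by_contra h3
        exact hh (hS.mem_succ.2 ⟨h2, h3⟩)
      · exact Or.inl h2
    refine (ih.union (thinM_of_an (U := ι ⁻¹' O j)
      (E := (fun h => v j (ι h)) ⁻¹' (f j ⁻¹' A j)) ?_ ?_)).mono h1
    · intro h hh
      obtain ⟨h2, h3⟩ := hS.holF hι hh
      have h4 : IsAn (X j) univ (f j ⁻¹' A j) := by
        intro x _
        obtain ⟨k, g, hg, hge⟩ := (hfl j).small.an (f j x) (mem_univ _)
        exact ⟨k, fun i => g i ∘ f j, fun i => (hfl j).small.holo x _ (hg i),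
          (hfl j).small.cont.continuousAt.eventually hge⟩
      exact isAnAt_preimage h4 h2 h3
    · intro h hh
      by_contra h2
      have h3 : (fun h => v j (ι h)) ⁻¹' (f j ⁻¹' A j) ∈ 𝓝 h := by
        rw [← mem_interior_iff_mem_nhds]
        rwa [closure_compl, notMem_compl_iff] at h2
      have h4 : ι ⁻¹' O j ∈ 𝓝 h :=
        hι.cont.continuousAt.preimage_mem_nhds ((hS.emb j).isOpen.mem_nhds hh)
      refine hι.not_dimLe (hS.emb j) hh (inter_mem h3 h4) (fun h hh => hh.2) ?_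
      refine (hfl j).small.dim.mono ?_
      rintro _ ⟨h, hh, rfl⟩
      exact hh.1

end

end Vale.Agent.P277.T3
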