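import Vale.Agent.P277.H619.T3.Chain

/-!
# P277, T3: the contracted surfaces of `H`
-/

open scoped Manifold ContDiff Topology
open Vale.Agent.P272.K Vale.Agent.P285.H281.FD Vale.Agent.P267.H175 Set Metric Filter
open Vale.Agent.P277.PH

noncomputable section

namespace Vale.Agent.P277.T3

section
variable {H : Type} [TopologicalSpace H] [ChartedSpace (Cm 3) H]

theorem isHypAt_eventually {E : Set H} {y : H} (h : IsHypAt 3 E y) :
    ∀ᶠ y' in 𝓝 y, y' ∈ E → IsHypAt 3 E y' := by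
  obtain ⟨e, he, g, hg, hg0, hd, hE⟩ := h
  have c1 : ContinuousAt e y := e.continuousAt he.2
  have h1 : ∀ᶠ z in 𝓝 (e y), fderiv ℂ g z ≠ 0 := hg.fderiv.continuousAt.eventually_ne hd
  filter_upwards [e.open_source.mem_nhds he.2, c1.eventually hg.eventually_analyticAt,
    c1.eventually h1, hE.eventually_nhds] with y' h2 h3 h4 h5 hy'
  exact ⟨e, ⟨he.1, h2⟩, g, h3, h5.self_of_nhds.1 hy', h4, h5⟩

theorem isHypAt_congr {E E' : Set H} {y : H} (h : IsHypAt 3 E y)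
    (hE : ∀ᶠ y' in 𝓝 y, y' ∈ E ↔ y' ∈ E') : IsHypAt 3 E' y := by
  obtain ⟨e, he, g, hg, hg0, hd, h1⟩ := h
  refine ⟨e, he, g, hg, hg0, hd, ?_⟩
  filter_upwards [hE, h1] with y' h2 h3
  rw [← h2, h3]

theorem isAnAt_closed {E : Set H} {y : H} (h : IsAnAt 3 E y) (hy : y ∉ E) :
    ∀ᶠ y' in 𝓝 y, y' ∉ E := by
  obtain ⟨k, g, hg, hE⟩ := h
  have h1 : ¬ ∀ i, g i y = 0 := fun h2 => hy (hE.self_of_nhds.2 h2)
  push Not at h1
  obtain ⟨i, hi⟩ := h1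
  obtain ⟨e, he⟩ := exists_at (n := 3) y
  have h2 : ∀ᶠ z in 𝓝 (e y), g i (e.symm z) ≠ 0 := by
    refine (hg i e he).continuousAt.eventually_ne ?_
    rwa [e.left_inv he.2]
  filter_upwards [(e.continuousAt he.2).eventually h2, e.open_source.mem_nhds he.2, hE]
    with y' h3 h4 h5 h6
  rw [e.left_inv h4] at h3
  exact h3 (h5.1 h6 i)

end

variable {Y : Type} [TopologicalSpace Y] [T2Space Y] [CompactSpace Y] [ChartedSpace (Cm 4) Y]
  [IsManifold 𝓘(ℂ, Cm 4) ω Y] {W : CSp} {X Z : ℕ → CSp} {v₀ : Y → W.pt} {p : W.pt → (X 0).pt}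
  {P : Bd W.pt} {r : ℕ} {G : Fin r → Set Y}
  {f : ∀ j, (X j).pt → (Z j).pt}
  {f' : ∀ j, (X (j + 1)).pt → (Z j).pt} {A : ∀ j, Set (Z j).pt} {L : ∀ j, Bd (X j).pt}
  {L' : ∀ j, Bd (X (j + 1)).pt} {O : ℕ → Set Y} {v : ∀ j, Y → (X j).pt}
  {H : Type} [TopologicalSpace H] [T2Space H] [CompactSpace H] [ConnectedSpace H]
  [ChartedSpace (Cm 3) H] [IsManifold 𝓘(ℂ, Cm 3) ω H] {ι : H → Y}

omit [T2Space Y] [CompactSpace Y] [IsManifold 𝓘(ℂ, Cm 4) ω Y] in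
/-- the map `p ∘ v₀` is holomorphic -/
theorem res_hol (hR : T2.IsRes v₀ p P G) (y : Y) :
    ContinuousAt (fun y => p (v₀ y)) y ∧ ∀ g : (X 0).pt → ℂ, (X 0).Hol g (p (v₀ y)) →
      ∀ e : Chart 4 Y, At e y → AnalyticAt ℂ (fun z => g (p (v₀ (e.symm z)))) (e y) := by
  refine ⟨ContinuousAt.comp (f := v₀) (g := p) hR.cont.continuousAt
    (hR.emb.continuousAt (mem_univ y)), fun g hg e he => ?_⟩
  exact (hR.emb.hol_iff (mem_univ y) he).1 (hR.holo (v₀ y) g hg)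

/-- the holomorphic maps `q j` outside thin sets -/
theorem exists_q (hGL : StLift) (hR : T2.IsRes v₀ p P G)
    (hfl : ∀ j, IsFlip (X j) (Z j) (X (j + 1)) (f j) (f' j) (A j) (L j) (L' j))
    (hS : IsSeq X Z f f' A O v) (hO0 : O 0 = (⋃ l, G l)ᶜ) (hv0 : v 0 = fun y => p (v₀ y))
    (hι : IsSub ι) (hne : (ι ⁻¹' O 0).Nonempty) (j : ℕ) :
    ∃ (Θ : Set H) (q : H → (X j).pt), QMap (X j) Θ q ∧ ∀ h, ι h ∈ O j → h ∉ Θ ∧ q h = v j (ι h) := by
  have : SecondCountableTopology H := ChartedSpace.secondCountable_of_sigmaCompact (Cm 3) H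
  induction j with
  | zero =>
    refine ⟨∅, fun h => v 0 (ι h), ⟨isClosed_empty, thinM_empty, fun y _ => ?_, fun y _ g hg => ?_⟩,
      fun h _ => ⟨notMem_empty h, rfl⟩⟩
    · rw [hv0]
      exact ContinuousAt.comp (f := ι) (g := fun y => p (v₀ y)) (res_hol hR (ι y)).1
        hι.cont.continuousAt
    · rw [hv0] at hg ⊢
      exact hι.holF (ζ := fun y => g (p (v₀ y))) ((res_hol hR (ι y)).2 g hg)
  | succ j ih =>
    obtain ⟨Θ, q, hq, hqv⟩ := ih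
    have hd : Dense {y | y ∉ Θ ∧ f j (q y) ∉ A j} := by
      have h1 := dense_compl_thin (hS.thin hfl hR.hyp hR.closed hO0 hι hne (j + 1))
      rw [compl_compl] at h1
      refine h1.mono fun h hh => ?_
      obtain ⟨h2, h3⟩ := hS.mem_succ.1 hh
      obtain ⟨h4, h5⟩ := hqv h h2
      exact ⟨h4, by rw [h5]; exact h3⟩
    obtain ⟨Θ', q', hq', -, hff, hΘ'⟩ := hGL H (X j) (Z j) (X (j + 1)) (f j) (f' j) (A j) (L j)
      (L' j) (hfl j) Θ q hq hd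
    refine ⟨Θ', q', hq', fun h hh => ?_⟩
    obtain ⟨h2, h3⟩ := hS.mem_succ.1 hh
    obtain ⟨h4, h5⟩ := hqv h h2
    have h6 : h ∉ Θ' := hΘ' h h4 (by rw [h5]; exact h3)
    refine ⟨h6, (hfl j).small'.inj (v (j + 1) (ι h)) (q' h) ?_ ?_⟩
    · rw [hS.comp j _ hh]; exact h3
    · rw [hff h h6, h5, hS.comp j _ hh]

/-- the divisor of a contracted surface -/
theorem exists_contr (hGL : StLift) (hHYP : StHyp) (hCL : StCl) (hR : T2.IsRes v₀ p P G)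
    (hfl : ∀ j, IsFlip (X j) (Z j) (X (j + 1)) (f j) (f' j) (A j) (L j) (L' j))
    (hS : IsSeq X Z f f' A O v) (hO0 : O 0 = (⋃ l, G l)ᶜ) (hv0 : v 0 = fun y => p (v₀ y))
    (hι : IsSub ι) (hne : (ι ⁻¹' O 0).Nonempty) {j : ℕ}
    (hj : ¬ ThinM 3 1 (ι ⁻¹' O j \ ι ⁻¹' O (j + 1))) :
    ∃ (M : Bd H) (s : M.ι → H → ℂ) (V : Set H), IsLB 3 M ∧ IsSec 3 M s ∧
      (∀ i, ∀ y ∈ M.U i, (s i y = 0 ↔ y ∈ V) ∧ ∃ᶠ y' in 𝓝 y, s i y' ≠ 0) ∧
      (∀ h ∈ V, ι h ∉ O (j + 1)) ∧ ∃ h ∈ V, ι h ∈ O j := by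
  have : SecondCountableTopology H := ChartedSpace.secondCountable_of_sigmaCompact (Cm 3) H
  obtain ⟨Θ, q, hq, hqv⟩ := exists_q hGL hR hfl hS hO0 hv0 hι hne j
  set E₀ : Set H := q ⁻¹' (f j ⁻¹' A j) with hE₀
  have hAn : IsAn (X j) univ (f j ⁻¹' A j) := by
    intro x _
    obtain ⟨k, g, hg, hge⟩ := (hfl j).small.an (f j x) (mem_univ _)
    exact ⟨k, fun i => g i ∘ f j, fun i => (hfl j).small.holo x _ (hg i),
      (hfl j).small.cont.continuousAt.eventually hge⟩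
  have hE₀an : ∀ y ∉ Θ, IsAnAt 3 E₀ y := fun y hy => isAnAt_preimage hAn (hq.cont y hy) (hq.holo y hy)
  have hOd : Dense (ι ⁻¹' O (j + 1)) := by
    have h1 := dense_compl_thin (hS.thin hfl hR.hyp hR.closed hO0 hι hne (j + 1))
    rwa [compl_compl] at h1
  have hOE : ∀ h ∈ ι ⁻¹' O (j + 1), h ∉ E₀ := by
    intro h hh hhE
    obtain ⟨h2, h3⟩ := hS.mem_succ.1 hh
    obtain ⟨h4, h5⟩ := hqv h h2
    refine h3 ?_
    rw [← h5]
    exact hhE
  have hE₀d : Θᶜ ⊆ closure E₀ᶜ := by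
    intro y _
    exact closure_mono (fun h hh => hOE h hh) (hOd y)
  have hbad := hHYP H Θᶜ E₀ hq.closed.isOpen_compl (fun y hy => hE₀an y hy) hE₀d
  set Bad : Set H := {y | y ∈ Θᶜ ∧ y ∈ E₀ ∧ ¬ IsHypAt 3 E₀ y} with hBad
  set E : Set H := (E₀ \ Θ) \ Bad with hE
  have hcl1 : IsClosed (E ∪ (Θ ∪ Bad)) := by
    have h1 : E ∪ (Θ ∪ Bad) = E₀ ∪ Θ := by
      ext y
      simp only [hE, hBad, mem_union, mem_diff, mem_setOf_eq, mem_compl_iff]
      tauto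
    rw [h1, ← isOpen_compl_iff, isOpen_iff_mem_nhds]
    intro y hy
    rw [mem_compl_iff, mem_union, not_or] at hy
    filter_upwards [isAnAt_closed (hE₀an y hy.2) hy.1, hq.closed.isOpen_compl.mem_nhds hy.2]
      with y' h2 h3 h4
    exact h4.elim h2 h3
  have hcl2 : IsClosed (Θ ∪ Bad) := by
    rw [← isOpen_compl_iff, isOpen_iff_mem_nhds]
    intro y hy
    rw [mem_compl_iff, mem_union, not_or] at hy
    by_cases hyE : y ∈ E₀
    · have h1 : IsHypAt 3 E₀ y := by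
        by_contra h2
        exact hy.2 ⟨hy.1, hyE, h2⟩
      filter_upwards [isHypAt_eventually h1, hq.closed.isOpen_compl.mem_nhds hy.1] with y' h2 h3 h4
      rcases h4 with h4 | h4
      · exact h3 h4
      · exact h4.2.2 (h2 h4.2.1)
    · filter_upwards [isAnAt_closed (hE₀an y hy.1) hyE, hq.closed.isOpen_compl.mem_nhds hy.1]
        with y' h2 h3 h4
      rcases h4 with h4 | h4
      · exact h3 h4
      · exact h2 h4.2.1
  have hEhyp : ∀ y ∈ E, IsHypAt 3 E y := by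
    intro y hy
    have h1 : IsHypAt 3 E₀ y := by
      by_contra h2
      exact hy.2 ⟨hy.1.2, hy.1.1, h2⟩
    refine isHypAt_congr h1 ?_
    have h3 : y ∉ Θ ∪ Bad := fun h4 => h4.elim hy.1.2 hy.2
    filter_upwards [hcl2.isOpen_compl.mem_nhds h3] with y' h4
    rw [mem_compl_iff, mem_union, not_or] at h4
    exact ⟨fun h5 => ⟨⟨h5, h4.1⟩, h4.2⟩, fun h5 => h5.1.1⟩
  obtain ⟨M, s, hM, hs, hz⟩ := hCL H (Θ ∪ Bad) E hcl2 (hq.thin.union hbad) (by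
    rw [disjoint_left]
    intro y hy h4
    exact h4.elim hy.1.2 hy.2) hcl1 hEhyp
  refine ⟨M, s, closure E, hM, hs, hz, ?_, ?_⟩
  · intro h hh hhO
    have h1 : IsOpen (ι ⁻¹' O (j + 1)) := (hS.emb (j + 1)).isOpen.preimage hι.cont
    obtain ⟨y, hy1, hy2⟩ := mem_closure_iff.1 hh _ h1 hhO
    exact hOE y hy1 hy2.1.1
  · by_contra hcon
    push Not at hcon
    refine hj (hbad.mono ?_)
    rintro h ⟨h1, h2⟩
    obtain ⟨h3, h4⟩ := hqv h h1
    have h5 : h ∈ E₀ := by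
      show f j (q h) ∈ A j
      rw [h4]
      by_contra h6
      exact h2 (hS.mem_succ.2 ⟨h1, h6⟩)
    by_contra h6
    exact hcon h (subset_closure ⟨⟨h5, h3⟩, h6⟩) h1

end Vale.Agent.P277.T3
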