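import Vale.Agent.P277.H619.T3.Bd
import Vale.Agent.P277.H619.T3.Met

/-!
# P277, T3: the logarithm of the norm of a section
-/

open scoped Manifold ContDiff Topology
open Vale.Agent.P272.K Vale.Agent.P285.H281.FD Vale.Agent.P267.H175 Set Metric Filter
open Vale.Agent.P277.PH

noncomputable section

namespace Vale.Agent.P277.T3

section
variable {H : Type} [TopologicalSpace H] [ChartedSpace (Cm 3) H]

theorem HolF.continuousAt {h : H → ℂ} {y : H} (hh : HolF 3 h y) : ContinuousAt h y := by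
  obtain ⟨e, he⟩ := exists_at (n := 3) y
  have h1 : ContinuousAt (fun z => h (e.symm (e z))) y :=
    ContinuousAt.comp (f := e) (g := fun z => h (e.symm z)) (hh e he).continuousAt
      (e.continuousAt he.2)
  refine h1.congr ?_
  filter_upwards [e.open_source.mem_nhds he.2] with z hz
  rw [e.left_inv hz]

theorem SmR.continuousAt {h : H → ℝ} {y : H} (hh : SmR 3 h y) : ContinuousAt h y := by
  obtain ⟨e, he⟩ := exists_at (n := 3) y
  have h1 : ContinuousAt (fun z => h (e.symm (e z))) y :=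
    ContinuousAt.comp (f := e) (g := fun z => h (e.symm z)) (hh e he).continuousAt
      (e.continuousAt he.2)
  refine h1.congr ?_
  filter_upwards [e.open_source.mem_nhds he.2] with z hz
  rw [e.left_inv hz]

theorem bdd_of_continuousAt {h : H → ℝ} {y : H} (hh : ContinuousAt h y) :
    ∃ C : ℝ, ∀ᶠ y' in 𝓝 y, |h y'| ≤ C :=
  ⟨|h y| + 1, (hh.abs.eventually (gt_mem_nhds (lt_add_one _))).mono fun _ h => h.le⟩

theorem LogAt.bdd {D : Set H} {w : H → ℝ} {y : H} (hw : LogAt 3 D w y) (hy : y ∉ D) :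
    ∃ C : ℝ, ∀ᶠ y' in 𝓝 y, y' ∉ D ∧ |w y'| ≤ C := by
  obtain ⟨h, C, hh, -, hE⟩ := hw
  have h0 : h y ≠ 0 := fun h1 => hy (hE.self_of_nhds.1.2 h1)
  have hc := HolF.continuousAt hh
  have h1 : ∀ᶠ y' in 𝓝 y, h y' ≠ 0 := hc.eventually_ne h0
  have h2 : ContinuousAt (fun y => Real.log ‖h y‖) y := hc.norm.log (norm_ne_zero_iff.2 h0)
  obtain ⟨C', hC'⟩ := bdd_of_continuousAt h2
  refine ⟨C + C', ?_⟩
  filter_upwards [h1, hE, hC'] with y' g1 g2 g3
  have g4 : y' ∉ D := fun g5 => g1 (g2.1.1 g5)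
  refine ⟨g4, ?_⟩
  have g5 := abs_sub_abs_le_abs_sub (w y') (Real.log ‖h y'‖)
  linarith [g2.2 g4]

variable [IsManifold 𝓘(ℂ, Cm 3) ω H]

variable {M : Bd H} {s : M.ι → H → ℂ} {V : Set H} {ψ : M.ι → H → ℝ}

/-- the function `log |s|²` -/
def lw (M : Bd H) (s : M.ι → H → ℂ) (ψ : M.ι → H → ℝ) (idx : H → M.ι) (y : H) : ℝ :=
  Real.log (‖s (idx y) y‖ ^ 2) - ψ (idx y) y

omit [IsManifold 𝓘(ℂ, Cm 3) ω H] in
theorem lw_eq (hM : IsLB 3 M) (hs : IsSec 3 M s) (hψ : IsMet 3 M ψ) {idx : H → M.ι}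
    (hidx : ∀ y, y ∈ M.U (idx y)) {y : H} {i : M.ι} (hi : y ∈ M.U i) (h0 : s i y ≠ 0) :
    lw M s ψ idx y = Real.log (‖s i y‖ ^ 2) - ψ i y := by
  unfold lw
  rw [hs.change (idx y) i y (hidx y) hi, hψ.change (idx y) i y (hidx y) hi, norm_mul, mul_pow,
    Real.log_mul (pow_ne_zero 2 (norm_ne_zero_iff.2 (hM.ne_zero _ _ y (hidx y) hi)))
      (pow_ne_zero 2 (norm_ne_zero_iff.2 h0))]
  ring

theorem sec_holF (hs : IsSec 3 M s) {i : M.ι} {y : H} (hi : y ∈ M.U i) : HolF 3 (s i) y :=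
  fun e he => (hs.holo i e y he hi).analyticAt

omit [IsManifold 𝓘(ℂ, Cm 3) ω H] in
theorem met_smR (hψ : IsMet 3 M ψ) {i : M.ι} {y : H} (hi : y ∈ M.U i) : SmR 3 (ψ i) y :=
  fun e he => hψ.smooth i e y he hi

theorem lw_logAt (hM : IsLB 3 M) (hs : IsSec 3 M s) (hψ : IsMet 3 M ψ) {idx : H → M.ι}
    (hidx : ∀ y, y ∈ M.U (idx y))
    (hV : ∀ i, ∀ y ∈ M.U i, (s i y = 0 ↔ y ∈ V) ∧ ∃ᶠ y' in 𝓝 y, s i y' ≠ 0) (y : H) :
    LogAt 3 V (lw M s ψ idx) y := by
  set i := idx y with hi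
  have hiy : y ∈ M.U i := hidx y
  obtain ⟨C, hC⟩ := bdd_of_continuousAt (SmR.continuousAt (met_smR hψ hiy))
  refine ⟨fun y => s i y ^ 2, C, ?_, ?_, ?_⟩
  · intro e he
    exact (sec_holF hs hiy e he).pow 2
  · exact (hV i y hiy).2.mono fun y' h1 => pow_ne_zero 2 h1
  · filter_upwards [(hM.isOpen i).mem_nhds hiy, hC] with y' h1 h2
    have h3 := (hV i y' h1).1
    refine ⟨by rw [← h3]; simp, fun h4 => ?_⟩
    have h5 : s i y' ≠ 0 := fun h6 => h4 (h3.1 h6)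
    rw [lw_eq hM hs hψ hidx h1 h5, norm_pow]
    rw [show Real.log (‖s i y'‖ ^ 2) - ψ i y' - Real.log (‖s i y'‖ ^ 2) = -ψ i y' by ring, abs_neg]
    exact h2

/-- `log |h|²` is pluriharmonic -/
theorem phAt_log {h : H → ℂ} {y : H} (hh : HolF 3 h y) (h0 : h y ≠ 0) :
    PHAt 3 (fun y => Real.log (‖h y‖ ^ 2)) y := by
  -- divide by the value
  have hc := HolF.continuousAt hh
  refine ⟨fun y' => 2 * Complex.log (h y' / h y) + (Real.log (‖h y‖ ^ 2) : ℂ), ?_, ?_⟩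
  · intro e he
    have h1 : AnalyticAt ℂ (fun z => h (e.symm z) / h y) (e y) := (hh e he).div_const
    have h2 : h (e.symm (e y)) / h y ∈ Complex.slitPlane := by
      rw [e.left_inv he.2, div_self h0]
      exact Complex.one_mem_slitPlane
    exact (analyticAt_const.mul (h1.clog h2)).add analyticAt_const
  · filter_upwards [hc.eventually_ne h0] with y' h1
    rw [Complex.add_re, Complex.ofReal_re, Complex.mul_re]
    simp only [Complex.re_ofNat, Complex.im_ofNat, zero_mul, sub_zero, Complex.log_re, norm_div]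
    rw [Real.log_pow, Real.log_pow, Real.log_div (norm_ne_zero_iff.2 h1) (norm_ne_zero_iff.2 h0)]
    push_cast
    ring

end

end Vale.Agent.P277.T3
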