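import Vale.Agent.P277.H619.T3.Fin1

/-!
# P277, T3: pluriharmonic combinations with linear conditions
-/

open scoped Manifold ContDiff Topology
open Vale.Agent.P272.K Vale.Agent.P285.H281.FD Vale.Agent.P267.H175 Set Metric Filter
open Vale.Agent.P277.PH

noncomputable section

namespace Vale.Agent.P277.T3

/-- many linearly independent vectors in the kernel -/
theorem exists_ker {N h : ℕ} {V : Type*} [AddCommGroup V] [Module ℝ V] [FiniteDimensional ℝ V]
    (Λ : (Fin N → ℝ) →ₗ[ℝ] V) (hN : h + Module.finrank ℝ V < N) :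
    ∃ a : Fin (h + 1) → (Fin N → ℝ), LinearIndependent ℝ a ∧ ∀ m, Λ (a m) = 0 := by
  have h1 := LinearMap.finrank_range_add_finrank_ker Λ
  rw [Module.finrank_fin_fun] at h1
  have h2 : Module.finrank ℝ (LinearMap.range Λ) ≤ Module.finrank ℝ V := Submodule.finrank_le _
  have h3 : h + 1 ≤ Module.finrank ℝ (LinearMap.ker Λ) := by omega
  let b := Module.finBasis ℝ (LinearMap.ker Λ)
  refine ⟨fun m => (b (Fin.castLE h3 m) : Fin N → ℝ), ?_, fun m => ?_⟩
  · have h4 : LinearIndependent ℝ fun m : Fin (h + 1) => b (Fin.castLE h3 m) :=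
      b.linearIndependent.comp _ (Fin.castLE_injective h3)
    exact h4.map' (LinearMap.ker Λ).subtype (Submodule.ker_subtype _)
  · exact LinearMap.mem_ker.1 (b (Fin.castLE h3 m)).2

variable {H : Type} [TopologicalSpace H] [T2Space H] [CompactSpace H] [ChartedSpace (Cm 3) H]
  [IsManifold 𝓘(ℂ, Cm 3) ω H]

theorem exists_comb (hPH : StPH) (H : Type) [TopologicalSpace H] [T2Space H] [CompactSpace H]
    [ChartedSpace (Cm 3) H] [IsManifold 𝓘(ℂ, Cm 3) ω H] :
    ∃ h : ℕ, ∀ (N : ℕ) (V : Type) [AddCommGroup V] [Module ℝ V] [FiniteDimensional ℝ V]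
      (Λ : (Fin N → ℝ) →ₗ[ℝ] V) (_ : h + Module.finrank ℝ V < N) (M : Fin N → Bd H)
      (_ : ∀ k, IsLB 3 (M k)) (ψ : ∀ k, (M k).ι → H → ℝ) (_ : ∀ k, IsMet 3 (M k) (ψ k)),
      ∃ (c : Fin N → ℝ) (φ : H → ℝ), c ≠ 0 ∧ Λ c = 0 ∧ (∀ x, SmR 3 φ x) ∧
        ∀ (i : ∀ k, (M k).ι) (x : H), (∀ k, x ∈ (M k).U (i k)) →
          PHAt 3 (fun y => ∑ k, c k * ψ k (i k) y + φ y) x := by
  obtain ⟨h, hh⟩ := hPH 3 H
  refine ⟨h, fun N V _ _ _ Λ hN M hM ψ hψ => ?_⟩
  obtain ⟨a, hai, hak⟩ := exists_ker Λ hN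
  have hd : ∀ (k : Fin N) (i j : (M k).ι) (x : H), x ∈ (M k).U i → x ∈ (M k).U j →
      PHAt 3 (fun y => ψ k i y - ψ k j y) x := by
    intro k i j x hi hj
    have h1 : HolF 3 ((M k).g i j) x := fun e he => ((hM k).holo i j e x he hi hj).analyticAt
    refine (phAt_log h1 ((hM k).ne_zero i j x hi hj)).congr ?_
    filter_upwards [((hM k).isOpen i).mem_nhds hi, ((hM k).isOpen j).mem_nhds hj] with y g1 g2
    rw [(hψ k).change i j y g1 g2]
    ring
  have hsum : ∀ (s : Finset (Fin N)) (u : Fin N → H → ℝ) (b : Fin N → ℝ) (x : H),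
      (∀ k, PHAt 3 (u k) x) → PHAt 3 (fun y => ∑ k ∈ s, b k * u k y) x := by
    intro s u b x hu
    induction s using Finset.induction_on with
    | empty =>
      refine ⟨fun _ => 0, fun e he => analyticAt_const, Eventually.of_forall fun y => ?_⟩
      simp
    | insert k s hk ih =>
      refine ((PHAt.const_mul (b k) (hu k)).add ih).congr (Eventually.of_forall fun y => ?_)
      rw [Finset.sum_insert hk]
  obtain ⟨t, φ, ht, hφ, hP⟩ := hh (h + 1) (Nat.lt_succ_self h) (fun _ => ∀ k, (M k).ι)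
    (fun _ i => ⋂ k, (M k).U (i k)) (fun m i y => ∑ k, a m k * ψ k (i k) y)
    (fun m i => isOpen_iInter_of_finite fun k => (hM k).isOpen _)
    (fun m x => by
      choose i hi using fun k => (hM k).cover x
      exact ⟨i, mem_iInter.2 hi⟩)
    (fun m i x hx => SmR.sum fun k _ => SmR.const_mul _ (met_smR (hψ k) (mem_iInter.1 hx k)))
    (fun m i j x hx => by
      refine (hsum Finset.univ (fun k y => ψ k (i k) y - ψ k (j k) y) (a m) x fun k =>
        hd k (i k) (j k) x (mem_iInter.1 hx.1 k) (mem_iInter.1 hx.2 k)).congr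
          (Eventually.of_forall fun y => ?_)
      rw [← Finset.sum_sub_distrib]
      exact Finset.sum_congr rfl fun k _ => by ring)
  refine ⟨∑ m, t m • a m, φ, ?_, ?_, hφ, fun i x hx => ?_⟩
  · intro h0
    refine ht ?_
    funext m
    exact Fintype.linearIndependent_iff.1 hai t h0 m
  · rw [map_sum]
    exact Finset.sum_eq_zero fun m _ => by rw [map_smul, hak, smul_zero]
  · refine (hP (fun _ => i) x fun m => mem_iInter.2 hx).congr (Eventually.of_forall fun y => ?_)
    have h1 : ∑ m, t m * ∑ k, a m k * ψ k (i k) y =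
        ∑ k, (∑ m, t m • a m) k * ψ k (i k) y := by
      simp only [Finset.mul_sum, Finset.sum_apply, Pi.smul_apply, smul_eq_mul, Finset.sum_mul]
      rw [Finset.sum_comm]
      exact Finset.sum_congr rfl fun k _ => Finset.sum_congr rfl fun m _ => by ring
    rw [h1]

end Vale.Agent.P277.T3
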