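import Vale.Agent.P277.H619.T3.Fin2
import Vale.Agent.P277.H884.PH5

/-!
# P277, T3: finitely many contracted surfaces (assembly)
-/

open scoped Manifold ContDiff Topology
open Vale.Agent.P272.K Vale.Agent.P285.H281.FD Vale.Agent.P267.H175 Set Metric Filter
open Vale.Agent.P277.PH

noncomputable section

namespace Vale.Agent.P277.T3

variable {Y : Type} [TopologicalSpace Y] [T2Space Y] [CompactSpace Y] [ChartedSpace (Cm 4) Y]
  [IsManifold 𝓘(ℂ, Cm 4) ω Y] {W : CSp} {X Z : ℕ → CSp} {v₀ : Y → W.pt} {p : W.pt → (X 0).pt}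
  {P : Bd W.pt} {r : ℕ} {G : Fin r → Set Y}
  {f : ∀ j, (X j).pt → (Z j).pt}
  {f' : ∀ j, (X (j + 1)).pt → (Z j).pt} {A : ∀ j, Set (Z j).pt} {L : ∀ j, Bd (X j).pt}
  {L' : ∀ j, Bd (X (j + 1)).pt} {O : ℕ → Set Y} {v : ∀ j, Y → (X j).pt}
  {H : Type} [TopologicalSpace H] [T2Space H] [CompactSpace H] [ConnectedSpace H]
  [ChartedSpace (Cm 3) H] [IsManifold 𝓘(ℂ, Cm 3) ω H] {ι : H → Y} {B : ∀ j, Set (X j).pt}

theorem lifts_all (hL0 : StLifts0) (hL1 : StLifts1) (hR : T2.IsRes v₀ p P G)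
    (hfl : ∀ j, IsFlip (X j) (Z j) (X (j + 1)) (f j) (f' j) (A j) (L j) (L' j))
    (hS : IsSeq X Z f f' A O v) (hO0 : O 0 = (⋃ l, G l)ᶜ) (hv0 : v 0 = fun y => p (v₀ y))
    (j : ℕ) : Lifts (X j) (O j) (v j) := by
  induction j with
  | zero =>
    rw [hO0, hv0]
    exact hL0 Y W (X 0) (hfl 0).normal r v₀ p P G hR
  | succ j ih =>
    exact hL1 Y (X j) (Z j) (X (j + 1)) (f j) (f' j) (A j) (L j) (L' j) (hfl j) (O j) (v j)
      (hS.emb j) (hS.dim j) ih (O (j + 1)) (v (j + 1)) (hS.emb (j + 1)) (hS.step j) (hS.comp j)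

omit [ConnectedSpace H] in
theorem ex_all (hE : StEx) (hfl : ∀ j, IsFlip (X j) (Z j) (X (j + 1)) (f j) (f' j) (A j) (L j)
    (L' j)) (hS : IsSeq X Z f f' A O v) (hι : IsSub ι) (hB : IsStr X O v ι B)
    (hreg : ∀ j, DimLe (X (j + 1)) 1 {x | f' j x ∈ A j ∧ x ∈ B (j + 1) ∧ ¬ IsReg 4 (X (j + 1)) x})
    (hlift : ∀ j, Lifts (X j) (O j) (v j)) (j : ℕ) :
    ∃ K : ℕ, ∀ (N : ℕ) (D : Fin N → Set H) (w : Fin N → H → ℝ)
      (_ : ∀ i y, LogAt 3 (D i) (w i) y), ∃ Λ : (Fin N → ℝ) →ₗ[ℝ] (Fin K → ℝ), ∀ c, Λ c = 0 →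
        DimLe (X (j + 1)) 1 {x | (f' j x ∈ A j ∧ x ∈ B (j + 1)) ∧
          ¬ BdAt (ι ⁻¹' O (j + 1)) (⋃ i, D i) (fun y => v (j + 1) (ι y))
            (fun y => ∑ i, c i * w i y) x} := by
  refine hE Y H ι hι (X (j + 1)) (O (j + 1)) (v (j + 1)) (hS.emb _) (hS.dim _) (hlift _)
    (B (j + 1)) (hB.closed _) (hB.eqn _) (hB.mem _) {x | f' j x ∈ A j ∧ x ∈ B (j + 1)} ?_ ?_ ?_ ?_ ?_
  · intro x _
    obtain ⟨k, g, hg, hge⟩ := (hfl j).small'.an (f' j x) (mem_univ _)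
    obtain ⟨σ, hσ, hσe⟩ := hB.eqn (j + 1) x
    refine ⟨k + 1, Fin.cons σ fun i => g i ∘ f' j, fun i => ?_, ?_⟩
    · refine Fin.cases ?_ (fun i => ?_) i
      · exact hσ
      · exact (hfl j).small'.holo x _ (hg i)
    · filter_upwards [hσe, (hfl j).small'.cont.continuousAt.eventually hge] with y h1 h2
      rw [Fin.forall_fin_succ]
      simp only [Fin.cons_zero, Fin.cons_succ, Function.comp_apply, mem_setOf_eq]
      rw [← h1, ← h2]
      exact and_comm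
  · exact (hfl j).small'.dim.mono fun x hx => hx.1
  · exact fun x hx => hx.2
  · rintro x hx ⟨y, hy, rfl⟩
    have h1 := hx.1
    rw [hS.comp j y hy] at h1
    exact (hS.mem_succ.1 hy).2 h1
  · refine (hreg j).mono ?_
    rintro x ⟨⟨h1, h2⟩, h3⟩
    exact ⟨h1, h2, h3⟩

omit [T2Space H] [CompactSpace H] [ConnectedSpace H] [IsManifold 𝓘(ℂ, Cm 3) ω H] in
theorem bdAt_congr {T : Type} [TopologicalSpace T] {O D : Set H} {b : H → T} {u u' : H → ℝ}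
    {x : T} {C : ℝ} (h : BdAt O D b u x) (hu : ∀ y, |u' y - u y| ≤ C) : BdAt O D b u' x := by
  obtain ⟨C', hC'⟩ := h
  refine ⟨C + C', ?_⟩
  filter_upwards [hC'] with x' hx' y hy hD hyx
  have h1 := hx' y hy hD hyx
  have h2 := hu y
  have h3 : |u' y| ≤ |u' y - u y| + |u y| := by
    have := abs_add_le (u' y - u y) (u y)
    simpa using this
  linarith

omit [T2Space H] [CompactSpace H] [ConnectedSpace H] [ChartedSpace (Cm 3) H]
  [IsManifold 𝓘(ℂ, Cm 3) ω H] in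
theorem isOpen_bdAt {T : Type} [TopologicalSpace T] {O D : Set H} {b : H → T} {u : H → ℝ} :
    IsOpen {x : T | BdAt O D b u x} := by
  rw [isOpen_iff_mem_nhds]
  rintro x ⟨C, hC⟩
  filter_upwards [hC.eventually_nhds] with y hy using ⟨C, hy⟩

omit [IsManifold 𝓘(ℂ, Cm 3) ω H] [T2Space H] [CompactSpace H] [ConnectedSpace H] in
/-- sums of bounded functions -/
theorem bdd_sum {N : ℕ} {w : Fin N → H → ℝ} {c : Fin N → ℝ} {y : H}
    (h : ∀ i, c i ≠ 0 → ∃ C : ℝ, ∀ᶠ y' in 𝓝 y, |w i y'| ≤ C) (s : Finset (Fin N)) :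
    ∃ C : ℝ, ∀ᶠ y' in 𝓝 y, |∑ i ∈ s, c i * w i y'| ≤ C := by
  induction s using Finset.induction_on with
  | empty => exact ⟨0, Eventually.of_forall fun y => by simp⟩
  | insert i s hi ih =>
    obtain ⟨C, hC⟩ := ih
    by_cases h0 : c i = 0
    · refine ⟨C, hC.mono fun y' hy' => ?_⟩
      rw [Finset.sum_insert hi, h0, zero_mul, zero_add]
      exact hy'
    · obtain ⟨C', hC'⟩ := h i h0
      refine ⟨|c i| * C' + C, ?_⟩
      filter_upwards [hC, hC'] with y' h1 h2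
      rw [Finset.sum_insert hi]
      refine (abs_add_le _ _).trans (add_le_add ?_ h1)
      rw [abs_mul]
      exact mul_le_mul_of_nonneg_left h2 (abs_nonneg _)

end Vale.Agent.P277.T3
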