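import Vale.Agent.P277.H619.T3.Fin3

/-!
# P277, T3: a pluriharmonic function which is locally bounded is constant
-/

open scoped Manifold ContDiff Topology
open Vale.Agent.P272.K Vale.Agent.P285.H281.FD Vale.Agent.P267.H175 Set Metric Filter
open Vale.Agent.P277.PH

noncomputable section

namespace Vale.Agent.P277.T3

section
variable {H : Type} [TopologicalSpace H] [ChartedSpace (Cm 3) H] [IsManifold 𝓘(ℂ, Cm 3) ω H]

theorem thinM_three [Nonempty H] [SecondCountableTopology H] : ThinM 3 3 (univ : Set H) := by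
  refine thinM_of_local fun y _ => ?_
  obtain ⟨e, he⟩ := exists_at (n := 3) y
  refine ⟨e.source, e.open_source.mem_nhds he.2, fun _ => e.target, fun _ => e.symm,
    fun _ => e.open_target, fun _ z hz => ⟨e.continuousAt_symm hz, fun e' he' => ?_⟩, ?_⟩
  · have h1 := trans_an ⟨he.1, e.map_target hz⟩ he'
    rwa [e.right_inv hz] at h1
  · rintro x ⟨hx, -⟩
    exact mem_iUnion.2 ⟨0, e x, e.map_source hx, e.left_inv hx⟩

end

variable {H Y : Type} [TopologicalSpace H] [TopologicalSpace Y] [ChartedSpace (Cm 3) H]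
  [ChartedSpace (Cm 4) Y] [IsManifold 𝓘(ℂ, Cm 4) ω Y] [IsManifold 𝓘(ℂ, Cm 3) ω H]
  [CompactSpace H] [T2Space H] [T2Space Y] {ι : H → Y}
  {X : CSp} {O : Set Y} {v : Y → X.pt} {B : Set X.pt} {u : H → ℝ} {D : Set H}

/-- (P2) on `H` -/
theorem const_of (hC : StConst) (hι : IsSub ι) (hv : IsOpenEmb X O v)
    (hd : DimLe X 2 (v '' O)ᶜ) (hBc : IsClosed B) (hB : ∀ y ∈ O, v y ∈ B ↔ y ∈ range ι)
    (hpre : IsPreconnected (ι ⁻¹' O)) (hD : ∀ h ∈ D, ι h ∉ O)
    (hu : ∀ h, ι h ∈ O → PHAt 3 u h)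
    (hbd : DimLe X 1 {x | x ∉ v '' O ∧ ¬ BdAt (ι ⁻¹' O) D (fun h => v (ι h)) u x}) :
    ∃ c, ∀ h, ι h ∈ O → u h = c := by
  classical
  have : SecondCountableTopology H := ChartedSpace.secondCountable_of_sigmaCompact (Cm 3) H
  rcases isEmpty_or_nonempty H with hem | hne
  · exact ⟨0, fun h => (hem.false h).elim⟩
  set τ : Set X.pt := {x | ¬ BdAt (ι ⁻¹' O) D (fun h => v (ι h)) u x} with hτ
  set S : Set X.pt := (v '' O)ᶜ with hS
  have hbH : ∀ h, ι h ∈ O → ContinuousAt (fun h => v (ι h)) h := fun h hh =>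
    ContinuousAt.comp (f := ι) (g := v) (hv.continuousAt hh) hι.cont.continuousAt
  -- `τ ⊆ S`
  have hτS : τ ⊆ S := by
    rintro x hx ⟨y, hy, rfl⟩
    refine hx ?_
    by_cases hyr : y ∈ range ι
    · obtain ⟨h₀, rfl⟩ := hyr
      obtain ⟨C, hC⟩ := bdd_of_continuousAt (SmR.continuousAt (hu h₀ hy).smR)
      refine ⟨C, ?_⟩
      have h1 : ∀ᶠ y in 𝓝 (ι h₀), y ∈ O ∧ ∀ h, ι h = y → |u h| ≤ C :=
        (hv.isOpen.eventually_mem hy).and (hι.eventually hC)
      have h2 : ∀ᶠ x in 𝓝 (v (ι h₀)), ∀ h, ι h ∈ O → v (ι h) = x → |u h| ≤ C := by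
        rw [← hv.map_nhds hy, eventually_map]
        filter_upwards [h1] with y' hy' h hhO hh
        exact hy'.2 h (hv.inj hhO hy'.1 hh)
      filter_upwards [h2] with x hx h hh _ hhx
      exact hx h hh hhx
    · refine ⟨0, ?_⟩
      have hxB : v y ∉ B := fun h => hyr ((hB y hy).1 h)
      filter_upwards [hBc.isOpen_compl.mem_nhds hxB] with x' hx' h hh _ hhx
      exact (hx' (hhx ▸ (hB _ hh).2 ⟨h, rfl⟩)).elim
  have hτd : DimLe X 1 τ := hbd.mono fun x hx => ⟨hτS hx, hx⟩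
  have hτc : IsClosed τ := by
    rw [← isOpen_compl_iff]
    have h1 : τᶜ = {x | BdAt (ι ⁻¹' O) D (fun h => v (ι h)) u x} := by
      ext x; simp [hτ]
    rw [h1]
    exact isOpen_bdAt
  have hSc : IsClosed S := hv.isOpen_image.isClosed_compl
  have hU : S ∪ τ = S := union_eq_left.2 hτS
  have himg : B \ (S ∪ τ) = (fun h => v (ι h)) '' (ι ⁻¹' O) := by
    rw [hU]
    ext x
    constructor
    · rintro ⟨hxB, hxS⟩
      rw [hS, notMem_compl_iff] at hxS
      obtain ⟨y, hy, rfl⟩ := hxS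
      obtain ⟨h, rfl⟩ := (hB y hy).1 hxB
      exact ⟨h, hy, rfl⟩
    · rintro ⟨h, hh, rfl⟩
      exact ⟨(hB _ hh).2 ⟨h, rfl⟩, fun h1 => h1 ⟨ι h, hh, rfl⟩⟩
  have hB3 : DimLe X 3 B := by
    have h1 : DimLe X 3 ((fun h => v (ι h)) '' (ι ⁻¹' O)) := by
      refine (thinM_three (H := H)).mono (subset_univ (ι ⁻¹' O)) |>.dimLe_image
        (hv.isOpen.preimage hι.cont) Subset.rfl (fun h hh => hbH h hh) fun h hh g hg => ?_
      exact hι.holF (ζ := fun y => g (v y)) fun e he => (hv.hol_iff hh he).1 hg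
    refine (h1.union (hd.le (by norm_num : 2 ≤ 3))).mono fun x hx => ?_
    by_cases hxS : x ∈ S
    · exact Or.inr hxS
    · left
      rw [← himg]
      rw [hU]
      exact ⟨hx, hxS⟩
  -- the function on `X`
  set uX : X.pt → ℝ := fun x => if hx : ∃ h, ι h ∈ O ∧ v (ι h) = x then u hx.choose else 0
    with huX
  have huXv : ∀ h, ι h ∈ O → uX (v (ι h)) = u h := by
    intro h hh
    have h1 : ∃ h', ι h' ∈ O ∧ v (ι h') = v (ι h) := ⟨h, hh, rfl⟩
    have h2 : h1.choose = h := hι.inj (hv.inj h1.choose_spec.1 hh h1.choose_spec.2)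
    simp only [huX, dif_pos h1, h2]
  obtain ⟨c, hc⟩ := hC X B τ S uX hBc hB3 hτc hτd hSc hd (by
    intro x hx
    rw [himg] at hx
    obtain ⟨h, hh, rfl⟩ := hx
    exact hι.isMfX hv hB hh) (by
    rw [himg]
    exact hpre.image _ fun h hh => (hbH h hh).continuousWithinAt) (by
    intro x hx
    rw [himg] at hx
    obtain ⟨h, hh, rfl⟩ := hx
    obtain ⟨g, hg, hgu⟩ := hu h hh
    obtain ⟨G, hG, hGe⟩ := hι.exists_ext hv hh hg
    refine ⟨G, hG, ?_⟩
    have h1 : ∀ᶠ x in 𝓝 (v (ι h)), ∀ h', ι h' ∈ O → v (ι h') = x → u h' = (g h').re := by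
      have h2 : ∀ᶠ y in 𝓝 (ι h), y ∈ O ∧ ∀ h', ι h' = y → u h' = (g h').re :=
        (hv.isOpen.eventually_mem hh).and (hι.eventually hgu)
      rw [← hv.map_nhds hh, eventually_map]
      filter_upwards [h2] with y' hy' h' hhO hh'
      exact hy'.2 h' (hv.inj hhO hy'.1 hh')
    filter_upwards [h1, hGe, hv.isOpen_image.mem_nhds ⟨ι h, hh, rfl⟩] with x g1 g2 g3 hxB
    have h2 : x ∈ B \ (S ∪ τ) := by
      rw [hU]
      exact ⟨hxB, fun h => h g3⟩
    rw [himg] at h2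
    obtain ⟨h', hh', rfl⟩ := h2
    rw [huXv h' hh', g1 h' hh' rfl, g2 h' hh' rfl]) (by
    intro x hx
    have h1 : BdAt (ι ⁻¹' O) D (fun h => v (ι h)) u x := by
      by_contra h2
      exact hx.2 h2
    obtain ⟨C, hC⟩ := h1
    refine ⟨C, ?_⟩
    filter_upwards [hC] with x' hx' hxR
    rw [himg] at hxR
    obtain ⟨h, hh, rfl⟩ := hxR
    rw [huXv h hh]
    exact hx' h hh (fun h1 => hD h h1 hh) rfl)
  refine ⟨c, fun h hh => ?_⟩
  rw [← huXv h hh]
  refine hc _ ?_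
  rw [himg]
  exact ⟨h, hh, rfl⟩

end Vale.Agent.P277.T3
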