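import Vale.Agent.P277.H619.T3.Fin4

/-!
# P277, T3: finitely many contracted surfaces (assembly)
-/

open scoped Manifold ContDiff Topology
open Vale.Agent.P272.K Vale.Agent.P285.H281.FD Vale.Agent.P267.H175 Set Metric Filter
open Vale.Agent.P277.PH

noncomputable section

namespace Vale.Agent.P277.T3

section
variable {H : Type} [TopologicalSpace H] [ChartedSpace (Cm 3) H] [IsManifold 𝓘(ℂ, Cm 3) ω H]

omit [IsManifold 𝓘(ℂ, Cm 3) ω H] in
theorem ph_sum {N : ℕ} (s : Finset (Fin N)) (u : Fin N → H → ℝ) (b : Fin N → ℝ) (x : H)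
    (hu : ∀ k, PHAt 3 (u k) x) : PHAt 3 (fun y => ∑ k ∈ s, b k * u k y) x := by
  induction s using Finset.induction_on with
  | empty =>
    refine ⟨fun _ => 0, fun e he => analyticAt_const, Eventually.of_forall fun y => ?_⟩
    simp
  | insert k s hk ih =>
    refine ((PHAt.const_mul (b k) (hu k)).add ih).congr (Eventually.of_forall fun y => ?_)
    rw [Finset.sum_insert hk]

theorem ph_comb {N : ℕ} {M : Fin N → Bd H} (hM : ∀ k, IsLB 3 (M k))
    {s : ∀ k, (M k).ι → H → ℂ} (hs : ∀ k, IsSec 3 (M k) (s k)) {ψ : ∀ k, (M k).ι → H → ℝ}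
    (hψ : ∀ k, IsMet 3 (M k) (ψ k)) {idx : ∀ k, H → (M k).ι}
    (hidx : ∀ k y, y ∈ (M k).U (idx k y)) {c : Fin N → ℝ} {φ : H → ℝ}
    (hφ : ∀ (i : ∀ k, (M k).ι) (x : H), (∀ k, x ∈ (M k).U (i k)) →
      PHAt 3 (fun y => ∑ k, c k * ψ k (i k) y + φ y) x) {h : H}
    (h0 : ∀ k i, h ∈ (M k).U i → s k i h ≠ 0) :
    PHAt 3 (fun y => ∑ k, c k * lw (M k) (s k) (ψ k) (idx k) y - φ y) h := by
  have hU : ∀ k, h ∈ (M k).U (idx k h) := fun k => hidx k h
  have h1 : PHAt 3 (fun y => ∑ k, c k * Real.log (‖s k (idx k h) y‖ ^ 2)) h :=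
    ph_sum Finset.univ _ c h fun k => phAt_log (sec_holF (hs k) (hU k)) (h0 k _ (hU k))
  have h2 := (hφ (fun k => idx k h) h hU).const_mul (-1)
  refine (h1.add h2).congr ?_
  have h3 : ∀ k, ∀ᶠ y in 𝓝 h, y ∈ (M k).U (idx k h) ∧ s k (idx k h) y ≠ 0 := fun k =>
    (((hM k).isOpen _).eventually_mem (hU k)).and
      ((HolF.continuousAt (sec_holF (hs k) (hU k))).eventually_ne (h0 k _ (hU k)))
  filter_upwards [eventually_all.2 h3] with y hy
  have h4 : ∀ k, lw (M k) (s k) (ψ k) (idx k) y =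
      Real.log (‖s k (idx k h) y‖ ^ 2) - ψ k (idx k h) y := fun k =>
    lw_eq (hM k) (hs k) (hψ k) (hidx k) (hy k).1 (hy k).2
  simp only [h4, mul_sub, Finset.sum_sub_distrib]
  ring

omit [IsManifold 𝓘(ℂ, Cm 3) ω H] in
theorem const_false {N : ℕ} {V : Fin N → Set H} {w : Fin N → H → ℝ}
    (hw : ∀ k y, LogAt 3 (V k) (w k) y) {c : Fin N → ℝ} (hc : c ≠ 0) {φ : H → ℝ}
    (hφ : Continuous φ) {O : Set H} (hO : Dense O) (hVO : ∀ k, Disjoint (V k) O)
    {a : ℝ} (ha : ∀ y ∈ O, ∑ k, c k * w k y - φ y = a)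
    (h₀ : Fin N → H) (hV : ∀ k, h₀ k ∈ V k) (hlt : ∀ k l, l < k → h₀ k ∉ V l) : False := by
  classical
  have hne : (Finset.univ.filter fun k => c k ≠ 0).Nonempty := by
    obtain ⟨k, hk⟩ := Function.ne_iff.1 hc
    exact ⟨k, by simpa using hk⟩
  obtain ⟨k₀, hk₀, hmax⟩ := Finset.exists_max_image _ (fun k => k) hne
  rw [Finset.mem_filter] at hk₀
  have hgt : ∀ l, k₀ < l → c l = 0 := by
    intro l hl
    by_contra hcl
    exact absurd (hmax l (by simp [hcl])) (not_le.2 hl)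
  set y₀ := h₀ k₀ with hy₀
  have hb : ∀ l, l ≠ k₀ → c l ≠ 0 → ∃ C : ℝ, ∀ᶠ y in 𝓝 y₀, |w l y| ≤ C := by
    intro l hl hcl
    have h1 : l < k₀ := by
      rcases lt_trichotomy l k₀ with h | h | h
      · exact h
      · exact (hl h).elim
      · exact (hcl (hgt l h)).elim
    obtain ⟨C, hC⟩ := LogAt.bdd (hw l y₀) (hlt k₀ l h1)
    exact ⟨C, hC.mono fun y hy => hy.2⟩
  obtain ⟨C₁, hC₁⟩ : ∃ C : ℝ, ∀ᶠ y in 𝓝 y₀, |∑ l ∈ Finset.univ.erase k₀, c l * w l y| ≤ C := by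
    obtain ⟨C, hC⟩ := bdd_sum (w := w) (c := fun l => if l = k₀ then 0 else c l) (y := y₀)
      (fun l hl => by
        have h1 : l ≠ k₀ := fun h => hl (by simp [h])
        exact hb l h1 (by simpa [h1] using hl)) (Finset.univ.erase k₀)
    refine ⟨C, hC.mono fun y hy => ?_⟩
    have h1 : ∑ l ∈ Finset.univ.erase k₀, c l * w l y =
        ∑ l ∈ Finset.univ.erase k₀, (if l = k₀ then 0 else c l) * w l y := by
      refine Finset.sum_congr rfl fun l hl => ?_
      rw [if_neg (Finset.ne_of_mem_erase hl)]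
    rw [h1]
    exact hy
  obtain ⟨C₂, hC₂⟩ := bdd_of_continuousAt hφ.continuousAt (y := y₀)
  obtain ⟨g, C₃, hg, -, hgE⟩ := hw k₀ y₀
  have hg0 : g y₀ = 0 := hgE.self_of_nhds.1.1 (hV k₀)
  have hgc := HolF.continuousAt hg
  -- bounded
  set R : ℝ := (|a| + C₁ + C₂) / |c k₀| + C₃ with hR
  have hbd : ∀ᶠ y in 𝓝 y₀, y ∈ O → -R ≤ Real.log ‖g y‖ := by
    filter_upwards [hC₁, hC₂, hgE] with y h1 h2 h3 hyO
    have h4 : y ∉ V k₀ := fun h => disjoint_left.1 (hVO k₀) h hyO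
    have h5 := h3.2 h4
    have h6 := ha y hyO
    rw [← Finset.add_sum_erase _ _ (Finset.mem_univ k₀)] at h6
    have h7 : |c k₀ * w k₀ y| ≤ |a| + C₁ + C₂ := by
      have h8 : c k₀ * w k₀ y = a - (∑ l ∈ Finset.univ.erase k₀, c l * w l y) + φ y := by
        linarith
      rw [h8]
      calc |a - (∑ l ∈ Finset.univ.erase k₀, c l * w l y) + φ y|
          ≤ |a - (∑ l ∈ Finset.univ.erase k₀, c l * w l y)| + |φ y| := abs_add_le _ _
        _ ≤ |a| + |∑ l ∈ Finset.univ.erase k₀, c l * w l y| + |φ y| := by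
            have := abs_sub a (∑ l ∈ Finset.univ.erase k₀, c l * w l y)
            linarith
        _ ≤ _ := by linarith
    have hc0 : 0 < |c k₀| := abs_pos.2 hk₀.2
    have h9 : |w k₀ y| ≤ (|a| + C₁ + C₂) / |c k₀| := by
      rw [le_div_iff₀ hc0, mul_comm, ← abs_mul]
      exact h7
    have h10 := abs_le.1 h5
    have h11 := abs_le.1 h9
    rw [hR]
    linarith [h10.1, h10.2, h11.1, h11.2]
  have hsm : ∀ᶠ y in 𝓝 y₀, ‖g y‖ < Real.exp (-R) := by
    have h1 : ContinuousAt (fun y => ‖g y‖) y₀ := hgc.norm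
    refine h1.eventually_lt_const ?_
    show ‖g y₀‖ < _
    rw [hg0, norm_zero]
    exact Real.exp_pos _
  obtain ⟨y, hyO, h1, h2, h3⟩ := ((mem_closure_iff_frequently.1 (hO y₀)).and_eventually
    (hbd.and (hsm.and hgE))).exists
  have h4 : g y ≠ 0 := fun h => disjoint_left.1 (hVO k₀) (h3.1.2 h) hyO
  have h5 : 0 < ‖g y‖ := norm_pos_iff.2 h4
  have h6 : Real.log ‖g y‖ < -R := by
    rw [Real.log_lt_iff_lt_exp h5]
    exact h2
  linarith [h1 hyO]

end

/-- (CONTR) -/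
theorem stContr_of (hPH : StPH) (hC : StConst) (hGL : StLift) (hHYP : StHyp) (hCL : StCl)
    (hE0 : StEx0) (hE : StEx) (hL0 : StLifts0) (hL1 : StLifts1) : StContr := by
  classical
  intro Y _ _ _ _ _ W X Z r v₀ p P G hR f f' A L L' hfl O v hS hO0 hv0 H _ _ _ _ _ _ ι hι hne B hB
    hreg hfin
  by_contra hcon
  push Not at hcon
  obtain ⟨J, hJ⟩ := hfin
  have : SecondCountableTopology H := ChartedSpace.secondCountable_of_sigmaCompact (Cm 3) H
  have hlift := lifts_all hL0 hL1 hR hfl hS hO0 hv0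
  have hthin := hS.thin hfl hR.hyp hR.closed hO0 hι hne
  -- the linear conditions
  choose K hK using ex_all hE hfl hS hι hB hreg hlift
  have hGan := isAnAt_union hι hR.hyp hR.closed
  have hGd : Dense (ι ⁻¹' ⋃ l, G l)ᶜ := by
    refine dense_compl_an hGan ?_
    obtain ⟨h, hh⟩ := hne
    refine ⟨h, fun h1 => ?_⟩
    rw [hO0] at hh
    exact hh h1
  obtain ⟨K0, hK0⟩ := hE0 H (ι ⁻¹' ⋃ l, G l) hGan hGd
  obtain ⟨h, hcomb⟩ := exists_comb hPH H
  -- many contracted surfaces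
  have hex : ∃ n : ℕ → ℕ, StrictMono n ∧
      ∀ k, ¬ ThinM 3 1 (ι ⁻¹' O (n k) \ ι ⁻¹' O (n k + 1)) := by
    refine extraction_of_frequently_atTop
      (P := fun k => ¬ ThinM 3 1 (ι ⁻¹' O k \ ι ⁻¹' O (k + 1))) ?_
    rw [frequently_atTop]
    intro a
    obtain ⟨b, hb, hb'⟩ := hcon a
    exact ⟨b, hb, hb'⟩
  obtain ⟨n, hn, hbad⟩ := hex
  set N : ℕ := h + (K0 + ∑ j : Fin J, K j) + 1 with hN
  choose M s V hM hs hV hVO hVO' using fun k : Fin N =>
    exists_contr hGL hHYP hCL hR hfl hS hO0 hv0 hι hne (hbad k)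
  choose ψ hψ using fun k => exists_isMet (hM k)
  choose idx hidx using fun k : Fin N => (hM k).cover
  set w : Fin N → H → ℝ := fun k => lw (M k) (s k) (ψ k) (idx k) with hw
  have hwl : ∀ k y, LogAt 3 (V k) (w k) y := fun k y =>
    lw_logAt (hM k) (hs k) (hψ k) (hidx k) (hV k) y
  obtain ⟨Λ0, hΛ0⟩ := hK0 N V w hwl
  choose Λ hΛ using fun j => hK j N V w hwl
  set Λt : (Fin N → ℝ) →ₗ[ℝ] (Fin K0 → ℝ) × (∀ j : Fin J, Fin (K j) → ℝ) :=
    Λ0.prod (LinearMap.pi fun j : Fin J => Λ j) with hΛt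
  have hdim : Module.finrank ℝ ((Fin K0 → ℝ) × (∀ j : Fin J, Fin (K j) → ℝ)) =
      K0 + ∑ j : Fin J, K j := by
    rw [Module.finrank_prod, Module.finrank_fin_fun, Module.finrank_pi_fintype]
    simp
  obtain ⟨c, φ, hc, hΛc, hφs, hφ⟩ := hcomb N _ Λt (by rw [hdim]; omega) M hM ψ hψ
  have hc0 : Λ0 c = 0 := by
    have := congrArg Prod.fst hΛc
    simpa [hΛt] using this
  have hcj : ∀ j : Fin J, Λ j c = 0 := by
    intro j
    have := congrFun (congrArg Prod.snd hΛc) j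
    simpa [hΛt] using this
  set D : Set H := ⋃ k, V k with hD
  set u : H → ℝ := fun y => ∑ k, c k * w k y with hu
  -- boundedness on all spaces
  have hbd : ∀ j, DimLe (X j) 1 {x | x ∉ v j '' O j ∧
      ¬ BdAt (ι ⁻¹' O j) D (fun h => v j (ι h)) u x} := by
    intro j
    induction j with
    | zero => exact bd_zero hR hO0 hv0 hι (hΛ0 c hc0)
    | succ j ih =>
      refine bd_step hfl hS hB ih ?_
      by_cases hj : j < J
      · exact hΛ j c (hcj ⟨j, hj⟩)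
      · exact (hJ j (not_lt.1 hj)).mono fun x hx => hx.1
  -- the final space
  set J' : ℕ := n N with hJ'
  have hsub : ∀ k : Fin N, O J' ⊆ O (n k + 1) := fun k =>
    hS.anti (by
      have := hn (show (k : ℕ) < N from k.2)
      omega)
  have hDO : ∀ h ∈ D, ι h ∉ O J' := by
    intro h hh hhO
    obtain ⟨k, hk⟩ := mem_iUnion.1 hh
    exact hVO k h hk (hsub k hhO)
  have hφc : Continuous φ := continuous_iff_continuousAt.2 fun y => SmR.continuousAt (hφs y)
  obtain ⟨Cφ, hCφ⟩ : ∃ C, ∀ y, |φ y| ≤ C := by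
    obtain ⟨C, hC⟩ := (isCompact_univ (X := H)).exists_bound_of_continuousOn hφc.continuousOn
    exact ⟨C, fun y => hC y (mem_univ y)⟩
  have hph : ∀ h, ι h ∈ O J' → PHAt 3 (fun y => u y - φ y) h := by
    intro h hh
    refine ph_comb hM hs hψ hidx hφ fun k i hi h0 => ?_
    exact hDO h (mem_iUnion.2 ⟨k, (hV k i h hi).1.1 h0⟩) hh
  have hpre : IsPreconnected (ι ⁻¹' O J') := by
    have h1 := isPreconnected_compl_thin (hthin J')
    rwa [compl_compl] at h1
  have hden : Dense (ι ⁻¹' O J') := by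
    have h1 := dense_compl_thin (hthin J')
    rwa [compl_compl] at h1
  obtain ⟨a, ha⟩ := const_of (D := D) hC hι (hS.emb J') (hS.dim J') (hB.closed J') (hB.mem J') hpre
    hDO hph (by
      refine (hbd J').mono ?_
      rintro x ⟨h1, h2⟩
      refine ⟨h1, fun h3 => h2 (bdAt_congr (C := Cφ) h3 fun y => ?_)⟩
      rw [show u y - φ y - u y = -φ y by ring, abs_neg]
      exact hCφ y)
  choose h₀ hh₀V hh₀O using hVO'
  refine const_false hwl hc hφc hden (fun k => ?_) (a := a) (fun y hy => ha y hy) h₀ hh₀V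
    (fun k l hlk hmem => ?_)
  · rw [disjoint_left]
    intro h hh hhO
    exact hDO h (mem_iUnion.2 ⟨k, hh⟩) hhO
  · refine hVO l _ hmem (hS.anti ?_ (hh₀O k))
    have := hn (show (l : ℕ) < k from hlk)
    omega

end Vale.Agent.P277.T3
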