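import Vale.Agent.P277.H619.T3.ThinM
import Vale.Agent.P277.H884.PH1
import Vale.Agent.P277.A.Emb
import Vale.Agent.P277.H73.IFT

/-!
# P277, T3: embedded threefolds, retractions
-/

open scoped Manifold ContDiff Topology
open Vale.Agent.P272.K Vale.Agent.P285.H281.FD Vale.Agent.P267.H175 Set Metric Filter
open Vale.Agent.P277.PH

noncomputable section

namespace Vale.Agent.P277.T3

variable {H Y : Type} [TopologicalSpace H] [TopologicalSpace Y] [ChartedSpace (Cm 3) H]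
  [ChartedSpace (Cm 4) Y] {ι : H → Y}

/-- local retraction of `Y` onto `H`, in the chart `e` of `H` -/
theorem IsSub.exists_retr [IsManifold 𝓘(ℂ, Cm 4) ω Y] (hι : IsSub ι) {h₀ : H} {e : Chart 3 H}
    (he : At e h₀) :
    ∃ ρ : Y → Cm 3, (∀ᶠ y in 𝓝 (ι h₀), ∀ e' : Chart 4 Y, At e' y →
      AnalyticAt ℂ (fun z => ρ (e'.symm z)) (e' y)) ∧ ∀ᶠ h in 𝓝 h₀, ρ (ι h) = e h := by
  set e' : Chart 4 Y := chartAt (Cm 4) (ι h₀) with he'
  have hA : At e' (ι h₀) := ⟨chart_mem_atlas _ _, mem_chart_source _ _⟩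
  obtain ⟨h1, h2⟩ := hι.holo h₀ e e' he hA
  set i : Cm 3 → Cm 4 := fun z => e' (ι (e.symm z)) with hi
  obtain ⟨L₀, hL₀⟩ := LinearMap.exists_leftInverse_of_injective
    (fderiv ℂ i (e h₀) : Cm 3 →ₗ[ℂ] Cm 4) (LinearMap.ker_eq_bot.2 h2)
  let L : Cm 4 →L[ℂ] Cm 3 := LinearMap.toContinuousLinearMap L₀
  have hL : ∀ v, L (fderiv ℂ i (e h₀) v) = v := fun v => by
    have := congrArg (fun T : Cm 3 →ₗ[ℂ] Cm 3 => T v) hL₀
    simpa [L] using this
  have hF : AnalyticAt ℂ (fun z => L (i z)) (e h₀) := (L.analyticAt _).comp h1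
  have hFd : fderiv ℂ (fun z => L (i z)) (e h₀) = L.comp (fderiv ℂ i (e h₀)) :=
    (L.hasFDerivAt.comp (e h₀) h1.differentiableAt.hasFDerivAt).fderiv
  have hD : Function.Injective (fderiv ℂ (fun z => L (i z)) (e h₀)) := by
    rw [hFd]
    intro a b hab
    rw [ContinuousLinearMap.comp_apply, ContinuousLinearMap.comp_apply, hL, hL] at hab
    exact hab
  obtain ⟨E, hE, hmem, -, hEs⟩ := H73.exists_localInv hF hD
  have hEt : L (e' (ι h₀)) ∈ E.target := by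
    have h3 := E.map_source hmem
    rw [hE] at h3
    simpa only [hi, e.left_inv he.2] using h3
  refine ⟨fun y => E.symm (L (e' y)), ?_, ?_⟩
  · have c1 : ContinuousAt (fun y => L (e' y)) (ι h₀) :=
      L.continuous.continuousAt.comp (e'.continuousAt hA.2)
    filter_upwards [e'.open_source.mem_nhds hA.2, c1.eventually_mem (E.open_target.mem_nhds hEt)]
      with y hy1 hy2 e'' he''
    have h3 : AnalyticAt ℂ (fun z => e' (e''.symm z)) (e'' y) :=
      trans_analyticAt he'' ⟨hA.1, hy1⟩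
    have h4 : AnalyticAt ℂ (fun z => L (e' (e''.symm z))) (e'' y) := (L.analyticAt _).comp h3
    refine AnalyticAt.fun_comp (g := E.symm) (hEs _ ?_) h4
    rw [e''.left_inv he''.2]
    exact hy2
  · have c2 : ContinuousAt e h₀ := e.continuousAt he.2
    filter_upwards [e.open_source.mem_nhds he.2, c2.eventually_mem (E.open_source.mem_nhds hmem)]
      with h hh1 hh2
    have h5 := E.left_inv hh2
    rw [hE] at h5
    simpa only [hi, e.left_inv hh1] using h5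

/-- `h → h₀` if `ι h → ι h₀` -/
theorem IsSub.eventually [CompactSpace H] [T2Space Y] (hι : IsSub ι) {h₀ : H} {P : H → Prop}
    (hP : ∀ᶠ h in 𝓝 h₀, P h) : ∀ᶠ y in 𝓝 (ι h₀), ∀ h, ι h = y → P h := by
  have h1 := (hι.cont.isClosedEmbedding hι.inj).toIsInducing
  rw [h1.nhds_eq_comap, eventually_comap] at hP
  exact hP

theorem IsSub.isClosed_range [CompactSpace H] [T2Space Y] (hι : IsSub ι) :
    IsClosed (range ι) := isCompact_range hι.cont |>.isClosed

variable {X : CSp} {O : Set Y} {v : Y → X.pt}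

/-- local retraction of `X` onto `v (ι H)`, in the chart `e` of `H` -/
theorem IsSub.exists_retrX [IsManifold 𝓘(ℂ, Cm 4) ω Y] [CompactSpace H] [T2Space Y]
    (hι : IsSub ι) (hv : IsOpenEmb X O v) {h₀ : H} (hO : ι h₀ ∈ O) {e : Chart 3 H}
    (he : At e h₀) :
    ∃ u : X.pt → Cm 3, (∀ᶠ x in 𝓝 (v (ι h₀)), ∀ i, X.Hol (fun x => u x i) x) ∧
      (∀ᶠ x in 𝓝 (v (ι h₀)), ∀ h, ι h ∈ O → v (ι h) = x → h ∈ e.source ∧ u x = e h) ∧
      u (v (ι h₀)) = e h₀ := by
  obtain ⟨ρ, hρ1, hρ2⟩ := hι.exists_retr he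
  refine ⟨fun x => ρ (hv.inv (ι h₀) x), ?_, ?_, ?_⟩
  · have h1 : ∀ᶠ y in 𝓝 (ι h₀), ∀ i, X.Hol (fun x => ρ (hv.inv (ι h₀) x) i) (v y) := by
      filter_upwards [hρ1, hv.isOpen.mem_nhds hO] with y hy1 hy2 i
      have hA : At (chartAt (Cm 4) y) y := ⟨chart_mem_atlas _ _, mem_chart_source _ _⟩
      refine hv.hol_of_analyticAt (ι h₀) hy2 hA (g := fun y => ρ y i) ?_
      exact ((ContinuousLinearMap.proj (R := ℂ) (φ := fun _ : Fin 3 => ℂ) i).analyticAt _).comp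
        (hy1 _ hA)
    rw [← hv.map_nhds hO]
    exact eventually_map.2 h1
  · have h1 : ∀ᶠ y in 𝓝 (ι h₀), y ∈ O ∧ ∀ h, ι h = y → h ∈ e.source ∧ ρ (ι h) = e h :=
      (hv.isOpen.eventually_mem hO).and (hι.eventually
        ((e.open_source.eventually_mem he.2).and hρ2))
    rw [← hv.map_nhds hO, eventually_map]
    filter_upwards [h1] with y hy h hhO hh
    have h3 : ι h = y := hv.inj hhO hy.1 hh
    obtain ⟨h4, h5⟩ := hy.2 h h3
    refine ⟨h4, ?_⟩
    simp only [hv.inv_apply (ι h₀) hy.1]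
    rw [← h3]
    exact h5
  · simp only [hv.inv_apply (ι h₀) hO]
    exact hρ2.self_of_nhds

/-- holomorphic functions of `H` near `h₀` extend to `X` -/
theorem IsSub.exists_ext [IsManifold 𝓘(ℂ, Cm 4) ω Y] [CompactSpace H] [T2Space Y]
    (hι : IsSub ι) (hv : IsOpenEmb X O v) {h₀ : H} (hO : ι h₀ ∈ O) {g : H → ℂ}
    (hg : HolF 3 g h₀) :
    ∃ G : X.pt → ℂ, X.Hol G (v (ι h₀)) ∧
      ∀ᶠ x in 𝓝 (v (ι h₀)), ∀ h, ι h ∈ O → v (ι h) = x → G x = g h := by
  obtain ⟨e, he⟩ := exists_at (n := 3) h₀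
  obtain ⟨u, hu1, hu2, hu3⟩ := hι.exists_retrX hv hO he
  refine ⟨fun x => g (e.symm (u x)), ?_, ?_⟩
  · refine hol_comp (f := fun i x => u x i) (G := fun z => g (e.symm z)) hu1.self_of_nhds ?_
    have h1 : (fun i => u (v (ι h₀)) i) = e h₀ := hu3
    rw [h1]
    exact hg e he
  · filter_upwards [hu2] with x hx h hhO hh
    obtain ⟨h1, h2⟩ := hx h hhO hh
    rw [h2, e.left_inv h1]

/-- the strict transform is a manifold in the common part -/
theorem IsSub.isMfX [IsManifold 𝓘(ℂ, Cm 4) ω Y] [CompactSpace H] [T2Space Y]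
    (hι : IsSub ι) (hv : IsOpenEmb X O v) {B : Set X.pt}
    (hB : ∀ y ∈ O, v y ∈ B ↔ y ∈ range ι) {h₀ : H} (hO : ι h₀ ∈ O) :
    IsMfX 3 X B (v (ι h₀)) := by
  obtain ⟨e, he⟩ := exists_at (n := 3) h₀
  obtain ⟨u, hu1, hu2, hu3⟩ := hι.exists_retrX hv hO he
  -- a good neighbourhood of `h₀`
  have h1 : ∀ᶠ h in 𝓝 h₀, h ∈ e.source ∧ ι h ∈ O ∧
      ∀ h', ι h' ∈ O → v (ι h') = v (ι h) → h' ∈ e.source ∧ u (v (ι h)) = e h' := by
    have c1 : ContinuousAt (fun h => v (ι h)) h₀ :=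
      ContinuousAt.comp (f := ι) (g := v) (hv.continuousAt hO) hι.cont.continuousAt
    exact (e.open_source.eventually_mem he.2).and ((hι.cont.continuousAt.eventually_mem
      (hv.isOpen.mem_nhds hO)).and (c1.eventually hu2))
  have h2 : ∀ᶠ z in 𝓝 (e h₀), z ∈ e.target ∧ e.symm z ∈ e.source ∧ ι (e.symm z) ∈ O ∧
      ∀ h', ι h' ∈ O → v (ι h') = v (ι (e.symm z)) → h' ∈ e.source ∧
        u (v (ι (e.symm z))) = e h' := by
    have c2 : ContinuousAt e.symm (e h₀) := e.continuousAt_symm (e.map_source he.2)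
    have h3 : ∀ᶠ h in 𝓝 (e.symm (e h₀)), h ∈ e.source ∧ ι h ∈ O ∧
        ∀ h', ι h' ∈ O → v (ι h') = v (ι h) → h' ∈ e.source ∧ u (v (ι h)) = e h' := by
      rwa [e.left_inv he.2]
    exact (e.open_target.eventually_mem (e.map_source he.2)).and (c2.eventually h3)
  obtain ⟨Ω, hΩs, hΩo, hΩm⟩ := _root_.mem_nhds_iff.1 h2
  refine ⟨Ω, fun z => v (ι (e.symm z)), u, hΩo, ?_, ⟨e h₀, hΩm, by simp only [e.left_inv he.2]⟩,
    fun i => ?_, ?_, ?_⟩
  · intro z hz
    obtain ⟨g1, g2, g3, -⟩ := hΩs hz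
    set y := ι (e.symm z) with hy
    set e' : Chart 4 Y := chartAt (Cm 4) y with he'
    have hA : At e' y := ⟨chart_mem_atlas _ _, mem_chart_source _ _⟩
    have hAz : At e (e.symm z) := ⟨he.1, g2⟩
    obtain ⟨g4, -⟩ := hι.holo (e.symm z) e e' hAz hA
    rw [e.right_inv g1] at g4
    have g5 : HolAt X (fun w => v (e'.symm w)) (e' (ι (e.symm z))) := hv.holAt g3 hA
    have g6 := HolAt.comp (γ := fun z => e' (ι (e.symm z))) (q := z) g5 g4
    refine g6.congr ?_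
    have c3 : ContinuousAt (fun z => ι (e.symm z)) z :=
      ContinuousAt.comp (f := e.symm) (g := ι) hι.cont.continuousAt
        (e.continuousAt_symm g1)
    filter_upwards [c3.eventually_mem (e'.open_source.mem_nhds hA.2)] with w hw
    simp only [Function.comp_apply]
    rw [e'.left_inv hw]
  · filter_upwards [hu1] with x hx using hx i
  · intro z hz
    obtain ⟨g1, g2, g3, g4⟩ := hΩs hz
    obtain ⟨-, g5⟩ := g4 (e.symm z) g3 rfl
    rw [g5, e.right_inv g1]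
  · have h5 : ∀ᶠ x in 𝓝 (v (ι h₀)), u x ∈ Ω := by
      have c4 : ContinuousAt u (v (ι h₀)) :=
        continuousAt_pi.2 fun i => hol_continuousAt (hu1.self_of_nhds i)
      refine c4.eventually_mem ?_
      rw [hu3]
      exact hΩo.mem_nhds hΩm
    filter_upwards [hu2, hv.isOpen_image.mem_nhds ⟨ι h₀, hO, rfl⟩, h5] with x hx1 hx2 hx3
    constructor
    · intro hxB
      obtain ⟨y, hy, rfl⟩ := hx2
      obtain ⟨h, rfl⟩ := (hB y hy).1 hxB
      obtain ⟨g1, g2⟩ := hx1 h hy rfl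
      refine ⟨hx3, ?_⟩
      rw [g2, e.left_inv g1]
    · rintro ⟨g1, g2⟩
      obtain ⟨-, -, g3, -⟩ := hΩs g1
      rw [← g2]
      exact (hB _ g3).2 ⟨_, rfl⟩

end Vale.Agent.P277.T3
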